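import Vale.Agent.P154q4.TMSound
import Vale.Agent.P154q4.D5.Ipn.F0
import Vale.Agent.P154q4.D5.Ipn.F1
import Vale.Agent.P154q4.D5.Ipn.F2
import Vale.Agent.P154q4.D5.Ipn.F3
import Vale.Agent.P154q4.D5.Ipn.F4

namespace Vale.Agent.P154q4.D5

open Vale.Agent.P154q4.TMC Vale.Agent.P154q4.TMS Ipn

set_option maxRecDepth 1000000 in
theorem covIpn : Cov DIpn ⟨0, 50331648, 0, 5592406, 0, 5592406⟩ ⟨0, 50331648, 0, 1864136, 0, 5592406⟩ :=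
  (Cov_zs _ 1 2796203 _ _ (Cov_zs _ 0 25165824 _ _ (Cov_zs _ 0 12582912 _ _ (Cov_zs _ 0 6291456 _ _ (chkRoot_sound _ _ _ _ c0) (Cov_zs _ 2 2796203 _ _ (chkRoot_sound _ _ _ _ c1) (Cov_zs _ 1 1398101 _ _ (chkRoot_sound _ _ _ _ c2) (chkRoot_sound _ _ _ _ c3)))) (Cov_zs _ 2 2796203 _ _ (Cov_zs _ 1 1398101 _ _ (chkRoot_sound _ _ _ _ c4) (chkRoot_sound _ _ _ _ c5)) (Cov_zs _ 0 18874368 _ _ (Cov_zs _ 1 1398101 _ _ (chkRoot_sound _ _ _ _ c6) (Cov_zs _ 2 4194304 _ _ (chkRoot_sound _ _ _ _ c7) (Cov_zs _ 0 15728640 _ _ (Cov_zs _ 1 2097152 _ _ (chkRoot_sound _ _ _ _ c8) (chkRoot_sound _ _ _ _ c9)) (Cov_zs _ 1 2097152 _ _ (chkRoot_sound _ _ _ _ c10) (chkRoot_sound _ _ _ _ c11))))) (Cov_zs _ 1 1398101 _ _ (chkRoot_sound _ _ _ _ c12) (Cov_zs _ 2 4194304 _ _ (Cov_zs _ 1 2097152 _ _ (chkRoot_sound _ _ _ _ c13) (Cov_zf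 _ 2965820 _ _ (by decide) (Cov_zs _ 0 22020096 _ _ (chkRoot_sound _ _ _ _ c14) (chkRoot_sound _ _ _ _ c15)))) (Cov_zs _ 0 22020096 _ _ (chkRoot_sound _ _ _ _ c16) (chkRoot_sound _ _ _ _ c17))))))) (chkRoot_sound _ _ _ _ c18)) (Cov_zf _ 2796203 _ _ (by decide) (Cov_zs _ 0 25165824 _ _ (Cov_zt _ 3954428 _ _ (by decide) (Cov_zf _ 3954428 _ _ (by decide) (Cov_zs _ 0 12582912 _ _ (chkRoot_sound _ _ _ _ c19) (Cov_zs _ 0 18874368 _ _ (chkRoot_sound _ _ _ _ c20) (Cov_zs _ 2 4773417 _ _ (chkRoot_sound _ _ _ _ c21) (Cov_zs _ 0 22020096 _ _ (Cov_zt _ 3699029 _ _ (by decide) (Cov_zs _ 1 3247616 _ _ (chkRoot_sound _ _ _ _ c22) (chkRoot_sound _ _ _ _ c23))) (Cov_zs _ 1 3375315 _ _ (Cov_zs _ 0 23592960 _ _ (chkRoot_sound _ _ _ _ c24) (chkRoot_sound _ _ _ _ c25)) (Cov_zs _ 2 5182911 _ _ (chkRoot_sound _ _ _ _ c26)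 (chkRoot_sound _ _ _ _ c27))))))))) (Cov_zs _ 1 4194304 _ _ (Cov_zs _ 0 37748736 _ _ (Cov_zf _ 3228777 _ _ (by decide) (Cov_zs _ 2 4410591 _ _ (chkRoot_sound _ _ _ _ c28) (Cov_zs _ 0 31457280 _ _ (Cov_zs _ 1 3495253 _ _ (Cov_zs _ 0 28311552 _ _ (Cov_zs _ 2 5001498 _ _ (Cov_zs _ 1 3145728 _ _ (chkRoot_sound _ _ _ _ c29) (Cov_zs _ 0 26738688 _ _ (chkRoot_sound _ _ _ _ c30) (chkRoot_sound _ _ _ _ c31))) (chkRoot_sound _ _ _ _ c32)) (chkRoot_sound _ _ _ _ c33)) (Cov_zs _ 2 5001498 _ _ (Cov_zf _ 4421184 _ _ (by decide) (Cov_zs _ 0 28311552 _ _ (chkRoot_sound _ _ _ _ c34) (chkRoot_sound _ _ _ _ c35))) (Cov_zs _ 0 28311552 _ _ (Cov_zs _ 1 3844778 _ _ (Cov_zs _ 0 26738688 _ _ (chkRoot_sound _ _ _ _ c36) (chkRoot_sound _ _ _ _ c37)) (chkRoot_sound _ _ _ _ c38)) (Cov_zs _ 1 3844778 _ _ (Cov_zs _ 0 29884416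 _ _ (chkRoot_sound _ _ _ _ c39) (chkRoot_sound _ _ _ _ c40)) (Cov_zs _ 2 5296952 _ _ (chkRoot_sound _ _ _ _ c41) (Cov_zs _ 0 29884416 _ _ (chkRoot_sound _ _ _ _ c42) (chkRoot_sound _ _ _ _ c43))))))) (Cov_zs _ 1 3495253 _ _ (chkRoot_sound _ _ _ _ c44) (Cov_zs _ 2 5001498 _ _ (chkRoot_sound _ _ _ _ c45) (Cov_zs _ 0 34603008 _ _ (Cov_zs _ 1 3844778 _ _ (chkRoot_sound _ _ _ _ c46) (Cov_zs _ 2 5296952 _ _ (Cov_zs _ 0 33030144 _ _ (chkRoot_sound _ _ _ _ c47) (chkRoot_sound _ _ _ _ c48)) (chkRoot_sound _ _ _ _ c49))) (chkRoot_sound _ _ _ _ c50))))))) (chkRoot_sound _ _ _ _ c51)) (Cov_zf _ 4194304 _ _ (by decide) (Cov_zs _ 0 37748736 _ _ (Cov_zt _ 4843166 _ _ (by decide) (Cov_zf _ 4843165 _ _ (by decide) (Cov_zs _ 0 31457280 _ _ (chkRoot_sound _ _ _ _ c52) (Cov_zs _ 0 34603008 _ _ (Cov_zt _ 4636978 _ _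 (by decide) (Cov_zf _ 5058520 _ _ (by decide) (Cov_zs _ 2 5325463 _ _ (chkRoot_sound _ _ _ _ c53) (Cov_zs _ 1 4415641 _ _ (Cov_zs _ 0 33030144 _ _ (chkRoot_sound _ _ _ _ c54) (chkRoot_sound _ _ _ _ c55)) (chkRoot_sound _ _ _ _ c56))))) (Cov_zs _ 2 5217785 _ _ (chkRoot_sound _ _ _ _ c57) (Cov_zs _ 1 4518735 _ _ (Cov_zs _ 0 36175872 _ _ (Cov_zs _ 1 4356519 _ _ (chkRoot_sound _ _ _ _ c58) (chkRoot_sound _ _ _ _ c59)) (chkRoot_sound _ _ _ _ c60)) (Cov_zs _ 0 36175872 _ _ (chkRoot_sound _ _ _ _ c61) (Cov_zs _ 2 5405095 _ _ (chkRoot_sound _ _ _ _ c62) (Cov_zs _ 1 4680950 _ _ (chkRoot_sound _ _ _ _ c63) (chkRoot_sound _ _ _ _ c64)))))))))) (Cov_zs _ 1 4893355 _ _ (Cov_zs _ 0 44040192 _ _ (Cov_zf _ 4483899 _ _ (by decide) (Cov_zs _ 2 5038152 _ _ (chkRoot_sound _ _ _ _ c65) (Cov_zs _ 0 40894464 _ _ (Cov_zs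 _ 1 4543829 _ _ (chkRoot_sound _ _ _ _ c66) (Cov_zs _ 2 5315279 _ _ (chkRoot_sound _ _ _ _ c67) (Cov_zs _ 0 39321600 _ _ (Cov_zs _ 1 4718592 _ _ (chkRoot_sound _ _ _ _ c68) (chkRoot_sound _ _ _ _ c69)) (Cov_zs _ 1 4718592 _ _ (chkRoot_sound _ _ _ _ c70) (chkRoot_sound _ _ _ _ c71))))) (chkRoot_sound _ _ _ _ c72)))) (chkRoot_sound _ _ _ _ c73)) (Cov_zf _ 4893355 _ _ (by decide) (Cov_zs _ 0 44040192 _ _ (Cov_zt _ 5231217 _ _ (by decide) (Cov_zf _ 5231216 _ _ (by decide) (Cov_zs _ 0 40894464 _ _ (chkRoot_sound _ _ _ _ c74) (Cov_zs _ 1 5062286 _ _ (Cov_zs _ 2 5411811 _ _ (chkRoot_sound _ _ _ _ c75) (Cov_zs _ 0 42467328 _ _ (Cov_zs _ 1 4977820 _ _ (chkRoot_sound _ _ _ _ c76) (chkRoot_sound _ _ _ _ c77)) (chkRoot_sound _ _ _ _ c78))) (Cov_zf _ 5411811 _ _ (by decide) (Cov_zs _ 0 42467328 _ _ (chkRoot_sound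 _ _ _ _ c79) (chkRoot_sound _ _ _ _ c80))))))) (Cov_zs _ 1 5242880 _ _ (Cov_zs _ 2 5242880 _ _ (chkRoot_sound _ _ _ _ c81) (chkRoot_sound _ _ _ _ c82)) (Cov_zf _ 5242880 _ _ (by decide) (Cov_zs _ 0 47185920 _ _ (Cov_zt _ 5414824 _ _ (by decide) (Cov_zf _ 5414823 _ _ (by decide) (Cov_zs _ 0 45613056 _ _ (chkRoot_sound _ _ _ _ c83) (chkRoot_sound _ _ _ _ c84)))) (Cov_zs _ 1 5417643 _ _ (chkRoot_sound _ _ _ _ c85) (chkRoot_sound _ _ _ _ c86))))))))))))))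

end Vale.Agent.P154q4.D5
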