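import Vale.Agent.P154q4.TMSound
import Vale.Agent.P154q4.D5.Ipp.F0
import Vale.Agent.P154q4.D5.Ipp.F1
import Vale.Agent.P154q4.D5.Ipp.F2
import Vale.Agent.P154q4.D5.Ipp.F3
import Vale.Agent.P154q4.D5.Ipp.F4
import Vale.Agent.P154q4.D5.Ipp.F5
import Vale.Agent.P154q4.D5.Ipp.F6
import Vale.Agent.P154q4.D5.Ipp.F7
import Vale.Agent.P154q4.D5.Ipp.F8
import Vale.Agent.P154q4.D5.Ipp.F9
import Vale.Agent.P154q4.D5.Ipp.F10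
import Vale.Agent.P154q4.D5.Ipp.F11
import Vale.Agent.P154q4.D5.Ipp.F12
import Vale.Agent.P154q4.D5.Ipp.F13
import Vale.Agent.P154q4.D5.Ipp.F14
import Vale.Agent.P154q4.D5.Ipp.F15
import Vale.Agent.P154q4.D5.Ipp.F16
import Vale.Agent.P154q4.D5.Ipp.F17
import Vale.Agent.P154q4.D5.Ipp.F18
import Vale.Agent.P154q4.D5.Ipp.F19
import Vale.Agent.P154q4.D5.Ipp.F20
import Vale.Agent.P154q4.D5.Ipp.F21
import Vale.Agent.P154q4.D5.Ipp.F22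
import Vale.Agent.P154q4.D5.Ipp.F23
import Vale.Agent.P154q4.D5.Ipp.F24
import Vale.Agent.P154q4.D5.Ipp.F25
import Vale.Agent.P154q4.D5.Ipp.F26
import Vale.Agent.P154q4.D5.Ipp.F27
import Vale.Agent.P154q4.D5.Ipp.F28
import Vale.Agent.P154q4.D5.Ipp.F29
import Vale.Agent.P154q4.D5.Ipp.F30
import Vale.Agent.P154q4.D5.Ipp.F31
import Vale.Agent.P154q4.D5.Ipp.F32
import Vale.Agent.P154q4.D5.Ipp.F33
import Vale.Agent.P154q4.D5.Ipp.F34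
import Vale.Agent.P154q4.D5.Ipp.F35
import Vale.Agent.P154q4.D5.Ipp.F36
import Vale.Agent.P154q4.D5.Ipp.F37
import Vale.Agent.P154q4.D5.Ipp.F38
import Vale.Agent.P154q4.D5.Ipp.F39
import Vale.Agent.P154q4.D5.Ipp.F40
import Vale.Agent.P154q4.D5.Ipp.F41
import Vale.Agent.P154q4.D5.Ipp.F42
import Vale.Agent.P154q4.D5.Ipp.F43
import Vale.Agent.P154q4.D5.Ipp.F44
import Vale.Agent.P154q4.D5.Ipp.F45
import Vale.Agent.P154q4.D5.Ipp.F46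
import Vale.Agent.P154q4.D5.Ipp.F47
import Vale.Agent.P154q4.D5.Ipp.F48
import Vale.Agent.P154q4.D5.Ipp.F49
import Vale.Agent.P154q4.D5.Ipp.F50
import Vale.Agent.P154q4.D5.Ipp.F51
import Vale.Agent.P154q4.D5.Ipp.F52
import Vale.Agent.P154q4.D5.Ipp.F53
import Vale.Agent.P154q4.D5.Ipp.F54
import Vale.Agent.P154q4.D5.Ipp.F55
import Vale.Agent.P154q4.D5.Ipp.F56
import Vale.Agent.P154q4.D5.Ipp.F57
import Vale.Agent.P154q4.D5.Ipp.F58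
import Vale.Agent.P154q4.D5.Ipp.F59
import Vale.Agent.P154q4.D5.Ipp.F60
import Vale.Agent.P154q4.D5.Ipp.F61
import Vale.Agent.P154q4.D5.Ipp.F62
import Vale.Agent.P154q4.D5.Ipp.F63
import Vale.Agent.P154q4.D5.Ipp.F64
import Vale.Agent.P154q4.D5.Ipp.F65
import Vale.Agent.P154q4.D5.Ipp.F66
import Vale.Agent.P154q4.D5.Ipp.F67
import Vale.Agent.P154q4.D5.Ipp.F68
import Vale.Agent.P154q4.D5.Ipp.F69
import Vale.Agent.P154q4.D5.Ipp.F70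

namespace Vale.Agent.P154q4.D5

open Vale.Agent.P154q4.TMC Vale.Agent.P154q4.TMS Ipp

set_option maxRecDepth 1000000 in
theorem covIpp : Cov DIpp ⟨0, 50331648, 0, 5592406, 0, 5592406⟩ ⟨0, 50331648, 0, 5592406, 0, 5592406⟩ :=
  (Cov_zs _ 0 25165824 _ _ (Cov_zt _ 3954428 _ _ (by decide) (Cov_zs _ 0 12582912 _ _ (Cov_zt _ 2796203 _ _ (by decide) (Cov_zs _ 0 6291456 _ _ (Cov_zt _ 1977214 _ _ (by decide) (Cov_zs _ 2 2796203 _ _ (chkRoot_sound _ _ _ _ c0) (Cov_zs _ 0 3145728 _ _ (chkRoot_sound _ _ _ _ c1) (Cov_ys _ 0 25165824 _ _ (chkRoot_sound _ _ _ _ c2) (Cov_zs _ 1 988607 _ _ (chkRoot_sound _ _ _ _ c3) (chkRoot_sound _ _ _ _ c4)))))) (Cov_zs _ 2 2796203 _ _ (Cov_zs _ 0 9437184 _ _ (Cov_zt _ 2421583 _ _ (by decide) (Cov_zs _ 2 1398101 _ _ (chkRoot_sound _ _ _ _ c5) (Cov_ys _ 0 25165824 _ _ (chkRoot_sound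 _ _ _ _ c6) (Cov_zs _ 0 7864320 _ _ (chkRoot_sound _ _ _ _ c7) (chkRoot_sound _ _ _ _ c8))))) (Cov_zs _ 2 1398101 _ _ (Cov_zs _ 1 1398101 _ _ (Cov_ys _ 0 25165824 _ _ (chkRoot_sound _ _ _ _ c9) (Cov_zs _ 1 699050 _ _ (Cov_zs _ 0 11010048 _ _ (chkRoot_sound _ _ _ _ c10) (Cov_ys _ 0 37748736 _ _ (chkRoot_sound _ _ _ _ c11) (Cov_zs _ 2 699050 _ _ (chkRoot_sound _ _ _ _ c12) (chkRoot_sound _ _ _ _ c13)))) (chkRoot_sound _ _ _ _ c14))) (chkRoot_sound _ _ _ _ c15)) (Cov_zs _ 1 1398101 _ _ (Cov_zs _ 0 11010048 _ _ (Cov_ys _ 0 25165824 _ _ (chkRoot_sound _ _ _ _ c16) (Cov_zs _ 1 699050 _ _ (Cov_ys _ 0 37748736 _ _ (chkRoot_sound _ _ _ _ c17) (Cov_zs _ 2 2097152 _ _ (chkRoot_sound _ _ _ _ c18) (chkRoot_sound _ _ _ _ c19))) (chkRoot_sound _ _ _ _ c20))) (Cov_ys _ 0 25165824 _ _ (chkRoot_sound _ _ _ _ c21) (Cov_zs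 _ 1 699050 _ _ (Cov_zs _ 2 2097152 _ _ (Cov_ys _ 0 37748736 _ _ (chkRoot_sound _ _ _ _ c22) (chkRoot_sound _ _ _ _ c23)) (chkRoot_sound _ _ _ _ c24)) (Cov_zs _ 2 2097152 _ _ (chkRoot_sound _ _ _ _ c25) (chkRoot_sound _ _ _ _ c26))))) (chkRoot_sound _ _ _ _ c27)))) (Cov_zs _ 0 9437184 _ _ (Cov_zt _ 2421583 _ _ (by decide) (Cov_zs _ 2 4194304 _ _ (Cov_zs _ 0 7864320 _ _ (chkRoot_sound _ _ _ _ c28) (Cov_ys _ 0 25165824 _ _ (chkRoot_sound _ _ _ _ c29) (Cov_zs _ 1 1210791 _ _ (Cov_zs _ 2 3495253 _ _ (chkRoot_sound _ _ _ _ c30) (chkRoot_sound _ _ _ _ c31)) (chkRoot_sound _ _ _ _ c32)))) (Cov_zs _ 0 7864320 _ _ (Cov_zt _ 2210593 _ _ (by decide) (Cov_ys _ 0 25165824 _ _ (chkRoot_sound _ _ _ _ c33) (Cov_zs _ 1 1105296 _ _ (chkRoot_sound _ _ _ _ c34) (chkRoot_sound _ _ _ _ c35)))) (Cov_ys _ 0 25165824 _ _ (chkRoot_sound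 _ _ _ _ c36) (Cov_zs _ 1 1210791 _ _ (Cov_zs _ 0 8650752 _ _ (chkRoot_sound _ _ _ _ c37) (Cov_ys _ 0 37748736 _ _ (chkRoot_sound _ _ _ _ c38) (chkRoot_sound _ _ _ _ c39))) (Cov_zs _ 2 4893355 _ _ (chkRoot_sound _ _ _ _ c40) (chkRoot_sound _ _ _ _ c41))))))) (Cov_zs _ 1 1398101 _ _ (Cov_zs _ 2 4194304 _ _ (Cov_zs _ 0 11010048 _ _ (Cov_ys _ 0 25165824 _ _ (chkRoot_sound _ _ _ _ c42) (Cov_zs _ 1 699050 _ _ (Cov_ys _ 0 37748736 _ _ (chkRoot_sound _ _ _ _ c43) (Cov_zs _ 2 3495253 _ _ (chkRoot_sound _ _ _ _ c44) (chkRoot_sound _ _ _ _ c45))) (Cov_zs _ 2 3495253 _ _ (chkRoot_sound _ _ _ _ c46) (chkRoot_sound _ _ _ _ c47)))) (Cov_ys _ 0 25165824 _ _ (chkRoot_sound _ _ _ _ c48) (Cov_zs _ 1 699050 _ _ (chkRoot_sound _ _ _ _ c49) (Cov_zs _ 2 3495253 _ _ (Cov_zs _ 0 11796480 _ _ (chkRoot_sound _ _ _ _ c50) (chkRoot_sound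 _ _ _ _ c51)) (Cov_zs _ 0 11796480 _ _ (chkRoot_sound _ _ _ _ c52) (chkRoot_sound _ _ _ _ c53)))))) (Cov_zs _ 0 11010048 _ _ (Cov_ys _ 0 25165824 _ _ (chkRoot_sound _ _ _ _ c54) (Cov_zs _ 1 699050 _ _ (chkRoot_sound _ _ _ _ c55) (Cov_zs _ 2 4893355 _ _ (Cov_ys _ 0 37748736 _ _ (chkRoot_sound _ _ _ _ c56) (chkRoot_sound _ _ _ _ c57)) (Cov_ys _ 0 37748736 _ _ (chkRoot_sound _ _ _ _ c58) (Cov_zs _ 0 10223616 _ _ (chkRoot_sound _ _ _ _ c59) (chkRoot_sound _ _ _ _ c60)))))) (Cov_ys _ 0 25165824 _ _ (chkRoot_sound _ _ _ _ c61) (Cov_zs _ 1 699050 _ _ (chkRoot_sound _ _ _ _ c62) (Cov_zs _ 2 4893355 _ _ (Cov_zs _ 0 11796480 _ _ (chkRoot_sound _ _ _ _ c63) (chkRoot_sound _ _ _ _ c64)) (chkRoot_sound _ _ _ _ c65)))))) (Cov_zs _ 2 4194304 _ _ (Cov_zs _ 0 11010048 _ _ (chkRoot_sound _ _ _ _ c66) (Cov_ys _ 0 25165824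 _ _ (chkRoot_sound _ _ _ _ c67) (Cov_zs _ 2 3495253 _ _ (chkRoot_sound _ _ _ _ c68) (chkRoot_sound _ _ _ _ c69)))) (Cov_zs _ 0 11010048 _ _ (Cov_zt _ 2615609 _ _ (by decide) (Cov_ys _ 0 25165824 _ _ (chkRoot_sound _ _ _ _ c70) (Cov_zs _ 2 4893355 _ _ (chkRoot_sound _ _ _ _ c71) (Cov_zs _ 1 2006855 _ _ (Cov_zs _ 0 10223616 _ _ (chkRoot_sound _ _ _ _ c72) (chkRoot_sound _ _ _ _ c73)) (chkRoot_sound _ _ _ _ c74))))) (Cov_zs _ 2 4893355 _ _ (Cov_ys _ 0 25165824 _ _ (chkRoot_sound _ _ _ _ c75) (Cov_zs _ 1 2097152 _ _ (Cov_zs _ 0 11796480 _ _ (chkRoot_sound _ _ _ _ c76) (chkRoot_sound _ _ _ _ c77)) (chkRoot_sound _ _ _ _ c78))) (Cov_ys _ 0 25165824 _ _ (chkRoot_sound _ _ _ _ c79) (Cov_zs _ 1 2097152 _ _ (Cov_zs _ 0 11796480 _ _ (Cov_ys _ 0 37748736 _ _ (chkRoot_sound _ _ _ _ c80) (chkRoot_sound _ _ _ _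 c81)) (Cov_ys _ 0 37748736 _ _ (chkRoot_sound _ _ _ _ c82) (Cov_zs _ 1 1747626 _ _ (chkRoot_sound _ _ _ _ c83) (chkRoot_sound _ _ _ _ c84)))) (Cov_zs _ 0 11796480 _ _ (chkRoot_sound _ _ _ _ c85) (chkRoot_sound _ _ _ _ c86)))))))))))) (Cov_zs _ 2 2796203 _ _ (Cov_zs _ 1 1977214 _ _ (Cov_zs _ 0 18874368 _ _ (Cov_zs _ 1 988607 _ _ (Cov_zs _ 0 15728640 _ _ (Cov_zs _ 2 1398101 _ _ (Cov_ys _ 0 25165824 _ _ (chkRoot_sound _ _ _ _ c87) (Cov_zs _ 1 494303 _ _ (Cov_zs _ 0 14155776 _ _ (Cov_ys _ 0 37748736 _ _ (chkRoot_sound _ _ _ _ c88) (Cov_zs _ 2 699050 _ _ (chkRoot_sound _ _ _ _ c89) (Cov_zs _ 0 13369344 _ _ (chkRoot_sound _ _ _ _ c90) (chkRoot_sound _ _ _ _ c91)))) (Cov_zs _ 2 699050 _ _ (Cov_ys _ 0 37748736 _ _ (chkRoot_sound _ _ _ _ c92) (Cov_zs _ 1 247151 _ _ (Cov_ys _ 0 44040192 _ _ (chkRoot_sound _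 _ _ _ c93) (chkRoot_sound _ _ _ _ c94)) (chkRoot_sound _ _ _ _ c95))) (Cov_ys _ 0 37748736 _ _ (chkRoot_sound _ _ _ _ c96) (Cov_zs _ 1 247151 _ _ (chkRoot_sound _ _ _ _ c97) (chkRoot_sound _ _ _ _ c98))))) (chkRoot_sound _ _ _ _ c99))) (Cov_zs _ 0 14155776 _ _ (Cov_ys _ 0 25165824 _ _ (chkRoot_sound _ _ _ _ c100) (Cov_zs _ 1 494303 _ _ (chkRoot_sound _ _ _ _ c101) (Cov_zs _ 2 2097152 _ _ (Cov_ys _ 0 37748736 _ _ (chkRoot_sound _ _ _ _ c102) (Cov_zs _ 0 13369344 _ _ (chkRoot_sound _ _ _ _ c103) (chkRoot_sound _ _ _ _ c104))) (Cov_zs _ 0 13369344 _ _ (chkRoot_sound _ _ _ _ c105) (chkRoot_sound _ _ _ _ c106))))) (Cov_ys _ 0 25165824 _ _ (chkRoot_sound _ _ _ _ c107) (Cov_zs _ 1 494303 _ _ (chkRoot_sound _ _ _ _ c108) (Cov_zs _ 2 2097152 _ _ (Cov_zs _ 1 741455 _ _ (Cov_ys _ 0 37748736 _ _ (chkRoot_sound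 _ _ _ _ c109) (chkRoot_sound _ _ _ _ c110)) (chkRoot_sound _ _ _ _ c111)) (chkRoot_sound _ _ _ _ c112)))))) (Cov_zs _ 2 1398101 _ _ (Cov_zs _ 1 494303 _ _ (Cov_ys _ 0 25165824 _ _ (chkRoot_sound _ _ _ _ c113) (Cov_zs _ 2 699050 _ _ (Cov_zs _ 0 17301504 _ _ (Cov_ys _ 0 37748736 _ _ (chkRoot_sound _ _ _ _ c114) (Cov_zs _ 1 247151 _ _ (Cov_ys _ 0 44040192 _ _ (chkRoot_sound _ _ _ _ c115) (Cov_zs _ 2 349525 _ _ (Cov_ys _ 1 2796203 _ _ (chkRoot_sound _ _ _ _ c116) (Cov_yf _ 2796203 _ _ (by decide) (Cov_zs _ 0 16515072 _ _ (chkRoot_sound _ _ _ _ c117) (Cov_zs _ 1 123575 _ _ (chkRoot_sound _ _ _ _ c118) (chkRoot_sound _ _ _ _ c119))))) (Cov_ys _ 1 2796203 _ _ (chkRoot_sound _ _ _ _ c120) (Cov_yf _ 2796203 _ _ (by decide) (Cov_zs _ 0 16515072 _ _ (chkRoot_sound _ _ _ _ c121) (chkRoot_sound _ _ _ _ c122))))))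 (chkRoot_sound _ _ _ _ c123))) (Cov_ys _ 0 37748736 _ _ (chkRoot_sound _ _ _ _ c124) (chkRoot_sound _ _ _ _ c125))) (Cov_zs _ 0 17301504 _ _ (Cov_ys _ 0 37748736 _ _ (chkRoot_sound _ _ _ _ c126) (Cov_zs _ 1 247151 _ _ (chkRoot_sound _ _ _ _ c127) (Cov_zs _ 2 1048575 _ _ (Cov_ys _ 0 44040192 _ _ (chkRoot_sound _ _ _ _ c128) (chkRoot_sound _ _ _ _ c129)) (chkRoot_sound _ _ _ _ c130)))) (Cov_zs _ 1 247151 _ _ (chkRoot_sound _ _ _ _ c131) (Cov_ys _ 0 37748736 _ _ (chkRoot_sound _ _ _ _ c132) (Cov_zs _ 2 1048575 _ _ (Cov_ys _ 0 44040192 _ _ (chkRoot_sound _ _ _ _ c133) (chkRoot_sound _ _ _ _ c134)) (chkRoot_sound _ _ _ _ c135))))))) (Cov_zf _ 807193 _ _ (by decide) (Cov_ys _ 0 25165824 _ _ (chkRoot_sound _ _ _ _ c136) (Cov_zs _ 0 17301504 _ _ (Cov_zf _ 843086 _ _ (by decide) (Cov_ys _ 0 37748736 _ _ (chkRoot_sound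 _ _ _ _ c137) (Cov_zs _ 1 741455 _ _ (Cov_zs _ 0 16515072 _ _ (chkRoot_sound _ _ _ _ c138) (chkRoot_sound _ _ _ _ c139)) (chkRoot_sound _ _ _ _ c140)))) (Cov_zs _ 1 741455 _ _ (Cov_ys _ 0 37748736 _ _ (chkRoot_sound _ _ _ _ c141) (Cov_zs _ 2 1102647 _ _ (chkRoot_sound _ _ _ _ c142) (Cov_zs _ 0 18087936 _ _ (chkRoot_sound _ _ _ _ c143) (chkRoot_sound _ _ _ _ c144)))) (chkRoot_sound _ _ _ _ c145)))))) (Cov_zs _ 1 494303 _ _ (chkRoot_sound _ _ _ _ c146) (Cov_zs _ 2 2097152 _ _ (Cov_ys _ 0 25165824 _ _ (chkRoot_sound _ _ _ _ c147) (Cov_zs _ 0 17301504 _ _ (Cov_zs _ 1 741455 _ _ (chkRoot_sound _ _ _ _ c148) (Cov_ys _ 0 37748736 _ _ (chkRoot_sound _ _ _ _ c149) (Cov_zs _ 2 1747626 _ _ (chkRoot_sound _ _ _ _ c150) (chkRoot_sound _ _ _ _ c151)))) (Cov_zs _ 1 741455 _ _ (chkRoot_sound _ _ _ _ c152) (Cov_zs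 _ 2 1747626 _ _ (Cov_ys _ 0 37748736 _ _ (chkRoot_sound _ _ _ _ c153) (Cov_zs _ 0 18087936 _ _ (chkRoot_sound _ _ _ _ c154) (Cov_ys _ 0 44040192 _ _ (chkRoot_sound _ _ _ _ c155) (chkRoot_sound _ _ _ _ c156)))) (Cov_ys _ 0 37748736 _ _ (chkRoot_sound _ _ _ _ c157) (chkRoot_sound _ _ _ _ c158)))))) (chkRoot_sound _ _ _ _ c159))))) (Cov_zf _ 1614388 _ _ (by decide) (Cov_zs _ 0 15728640 _ _ (Cov_zf _ 1768473 _ _ (by decide) (Cov_zs _ 0 14155776 _ _ (Cov_zf _ 1864135 _ _ (by decide) (Cov_ys _ 0 25165824 _ _ (chkRoot_sound _ _ _ _ c160) (Cov_zs _ 1 1482910 _ _ (Cov_zs _ 2 2330169 _ _ (chkRoot_sound _ _ _ _ c161) (chkRoot_sound _ _ _ _ c162)) (chkRoot_sound _ _ _ _ c163)))) (Cov_ys _ 0 25165824 _ _ (chkRoot_sound _ _ _ _ c164) (Cov_zs _ 1 1482910 _ _ (Cov_zs _ 2 2282338 _ _ (chkRoot_sound _ _ _ _ c165) (Cov_zs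 _ 1 1235758 _ _ (chkRoot_sound _ _ _ _ c166) (chkRoot_sound _ _ _ _ c167))) (chkRoot_sound _ _ _ _ c168))))) (Cov_zs _ 1 1482910 _ _ (Cov_zs _ 2 2205295 _ _ (Cov_zs _ 0 17301504 _ _ (chkRoot_sound _ _ _ _ c169) (Cov_ys _ 0 25165824 _ _ (chkRoot_sound _ _ _ _ c170) (Cov_zs _ 1 1235758 _ _ (Cov_zs _ 2 1909841 _ _ (chkRoot_sound _ _ _ _ c171) (Cov_ys _ 0 37748736 _ _ (chkRoot_sound _ _ _ _ c172) (Cov_zs _ 0 18087936 _ _ (chkRoot_sound _ _ _ _ c173) (chkRoot_sound _ _ _ _ c174)))) (chkRoot_sound _ _ _ _ c175)))) (Cov_zs _ 0 17301504 _ _ (Cov_ys _ 0 25165824 _ _ (chkRoot_sound _ _ _ _ c176) (Cov_zs _ 1 1235758 _ _ (Cov_zs _ 0 16515072 _ _ (chkRoot_sound _ _ _ _ c177) (chkRoot_sound _ _ _ _ c178)) (Cov_zs _ 0 16515072 _ _ (chkRoot_sound _ _ _ _ c179) (chkRoot_sound _ _ _ _ c180)))) (Cov_ys _ 0 25165824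 _ _ (chkRoot_sound _ _ _ _ c181) (Cov_zs _ 1 1235758 _ _ (Cov_zs _ 0 18087936 _ _ (chkRoot_sound _ _ _ _ c182) (chkRoot_sound _ _ _ _ c183)) (Cov_zs _ 2 2500749 _ _ (Cov_zs _ 0 18087936 _ _ (chkRoot_sound _ _ _ _ c184) (chkRoot_sound _ _ _ _ c185)) (Cov_zs _ 0 18087936 _ _ (chkRoot_sound _ _ _ _ c186) (chkRoot_sound _ _ _ _ c187))))))) (chkRoot_sound _ _ _ _ c188))))) (Cov_zs _ 1 988607 _ _ (Cov_zs _ 2 1398101 _ _ (chkRoot_sound _ _ _ _ c189) (chkRoot_sound _ _ _ _ c190)) (Cov_zf _ 1398101 _ _ (by decide) (Cov_zs _ 0 22020096 _ _ (Cov_zf _ 1494633 _ _ (by decide) (Cov_zs _ 1 1482910 _ _ (Cov_zs _ 2 2145418 _ _ (Cov_zs _ 0 20447232 _ _ (Cov_zf _ 1551054 _ _ (by decide) (Cov_ys _ 0 25165824 _ _ (chkRoot_sound _ _ _ _ c191) (Cov_zs _ 1 1235758 _ _ (Cov_zs _ 2 1848236 _ _ (chkRoot_sound _ _ _ _ c192)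 (Cov_zs _ 0 19660800 _ _ (Cov_ys _ 0 37748736 _ _ (chkRoot_sound _ _ _ _ c193) (Cov_ys _ 0 44040192 _ _ (chkRoot_sound _ _ _ _ c194) (chkRoot_sound _ _ _ _ c195))) (chkRoot_sound _ _ _ _ c196))) (chkRoot_sound _ _ _ _ c197)))) (chkRoot_sound _ _ _ _ c198)) (Cov_zs _ 0 20447232 _ _ (Cov_ys _ 0 25165824 _ _ (chkRoot_sound _ _ _ _ c199) (Cov_zs _ 1 1235758 _ _ (Cov_zs _ 2 2470810 _ _ (Cov_zs _ 0 19660800 _ _ (chkRoot_sound _ _ _ _ c200) (chkRoot_sound _ _ _ _ c201)) (chkRoot_sound _ _ _ _ c202)) (Cov_zs _ 2 2470810 _ _ (Cov_zs _ 0 19660800 _ _ (Cov_ys _ 0 37748736 _ _ (chkRoot_sound _ _ _ _ c203) (chkRoot_sound _ _ _ _ c204)) (Cov_ys _ 0 37748736 _ _ (chkRoot_sound _ _ _ _ c205) (Cov_zs _ 1 1359334 _ _ (chkRoot_sound _ _ _ _ c206) (chkRoot_sound _ _ _ _ c207)))) (Cov_zs _ 0 19660800 _ _ (Cov_ys _ 0 37748736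 _ _ (chkRoot_sound _ _ _ _ c208) (Cov_zs _ 1 1359334 _ _ (chkRoot_sound _ _ _ _ c209) (chkRoot_sound _ _ _ _ c210))) (Cov_ys _ 0 37748736 _ _ (chkRoot_sound _ _ _ _ c211) (Cov_zs _ 1 1359334 _ _ (chkRoot_sound _ _ _ _ c212) (chkRoot_sound _ _ _ _ c213))))))) (chkRoot_sound _ _ _ _ c214))) (Cov_zf _ 2241949 _ _ (by decide) (Cov_zs _ 0 20447232 _ _ (Cov_zf _ 2326580 _ _ (by decide) (Cov_ys _ 0 25165824 _ _ (chkRoot_sound _ _ _ _ c215) (Cov_zs _ 1 1730062 _ _ (Cov_zs _ 2 2561391 _ _ (chkRoot_sound _ _ _ _ c216) (Cov_zs _ 0 19660800 _ _ (chkRoot_sound _ _ _ _ c217) (chkRoot_sound _ _ _ _ c218))) (chkRoot_sound _ _ _ _ c219)))) (Cov_zs _ 1 1730062 _ _ (Cov_ys _ 0 25165824 _ _ (chkRoot_sound _ _ _ _ c220) (Cov_zs _ 2 2519076 _ _ (chkRoot_sound _ _ _ _ c221) (Cov_zs _ 0 21233664 _ _ (Cov_ys _ 0 37748736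 _ _ (chkRoot_sound _ _ _ _ c222) (Cov_zs _ 1 1606486 _ _ (chkRoot_sound _ _ _ _ c223) (chkRoot_sound _ _ _ _ c224))) (chkRoot_sound _ _ _ _ c225)))) (chkRoot_sound _ _ _ _ c226)))))) (chkRoot_sound _ _ _ _ c227))))) (chkRoot_sound _ _ _ _ c228)) (Cov_zs _ 1 1977214 _ _ (Cov_zs _ 0 18874368 _ _ (Cov_zs _ 0 15728640 _ _ (Cov_zs _ 1 988607 _ _ (chkRoot_sound _ _ _ _ c229) (Cov_zs _ 2 4194304 _ _ (Cov_zs _ 0 14155776 _ _ (Cov_ys _ 0 25165824 _ _ (chkRoot_sound _ _ _ _ c230) (Cov_zs _ 2 3495253 _ _ (Cov_zs _ 1 1482910 _ _ (Cov_zs _ 0 13369344 _ _ (chkRoot_sound _ _ _ _ c231) (chkRoot_sound _ _ _ _ c232)) (chkRoot_sound _ _ _ _ c233)) (Cov_zs _ 1 1482910 _ _ (Cov_zs _ 0 13369344 _ _ (chkRoot_sound _ _ _ _ c234) (chkRoot_sound _ _ _ _ c235)) (Cov_zs _ 0 13369344 _ _ (chkRoot_sound _ _ _ _ c236) (chkRoot_sound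 _ _ _ _ c237))))) (Cov_zs _ 2 3495253 _ _ (Cov_ys _ 0 25165824 _ _ (chkRoot_sound _ _ _ _ c238) (Cov_zs _ 1 1482910 _ _ (Cov_zs _ 0 14942208 _ _ (chkRoot_sound _ _ _ _ c239) (chkRoot_sound _ _ _ _ c240)) (Cov_zs _ 2 3145728 _ _ (chkRoot_sound _ _ _ _ c241) (chkRoot_sound _ _ _ _ c242)))) (Cov_ys _ 0 25165824 _ _ (chkRoot_sound _ _ _ _ c243) (Cov_zs _ 1 1482910 _ _ (chkRoot_sound _ _ _ _ c244) (Cov_zs _ 0 14942208 _ _ (Cov_zs _ 2 3844778 _ _ (chkRoot_sound _ _ _ _ c245) (chkRoot_sound _ _ _ _ c246)) (Cov_zs _ 1 1730062 _ _ (chkRoot_sound _ _ _ _ c247) (chkRoot_sound _ _ _ _ c248))))))) (Cov_zs _ 0 14155776 _ _ (Cov_zs _ 2 4893355 _ _ (Cov_ys _ 0 25165824 _ _ (chkRoot_sound _ _ _ _ c249) (Cov_zs _ 1 1482910 _ _ (chkRoot_sound _ _ _ _ c250) (Cov_zs _ 0 13369344 _ _ (Cov_ys _ 0 37748736 _ _ (chkRoot_sound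 _ _ _ _ c251) (chkRoot_sound _ _ _ _ c252)) (Cov_ys _ 0 37748736 _ _ (chkRoot_sound _ _ _ _ c253) (Cov_zs _ 1 1730062 _ _ (chkRoot_sound _ _ _ _ c254) (chkRoot_sound _ _ _ _ c255)))))) (Cov_ys _ 0 25165824 _ _ (chkRoot_sound _ _ _ _ c256) (Cov_zs _ 1 1482910 _ _ (chkRoot_sound _ _ _ _ c257) (Cov_zs _ 0 13369344 _ _ (Cov_ys _ 0 37748736 _ _ (chkRoot_sound _ _ _ _ c258) (chkRoot_sound _ _ _ _ c259)) (chkRoot_sound _ _ _ _ c260))))) (Cov_zs _ 2 4893355 _ _ (Cov_zs _ 1 1482910 _ _ (chkRoot_sound _ _ _ _ c261) (Cov_ys _ 0 25165824 _ _ (chkRoot_sound _ _ _ _ c262) (Cov_zs _ 0 14942208 _ _ (Cov_zs _ 1 1730062 _ _ (chkRoot_sound _ _ _ _ c263) (chkRoot_sound _ _ _ _ c264)) (chkRoot_sound _ _ _ _ c265)))) (chkRoot_sound _ _ _ _ c266))))) (Cov_zs _ 1 988607 _ _ (chkRoot_sound _ _ _ _ c267) (Cov_zs _ 2 4194304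 _ _ (Cov_zs _ 1 1482910 _ _ (Cov_zs _ 0 17301504 _ _ (Cov_zs _ 2 3495253 _ _ (Cov_ys _ 0 25165824 _ _ (chkRoot_sound _ _ _ _ c268) (Cov_zs _ 1 1235758 _ _ (chkRoot_sound _ _ _ _ c269) (Cov_zs _ 0 16515072 _ _ (chkRoot_sound _ _ _ _ c270) (chkRoot_sound _ _ _ _ c271)))) (chkRoot_sound _ _ _ _ c272)) (chkRoot_sound _ _ _ _ c273)) (Cov_zs _ 2 3495253 _ _ (Cov_zs _ 0 17301504 _ _ (Cov_ys _ 0 25165824 _ _ (chkRoot_sound _ _ _ _ c274) (Cov_zs _ 1 1730062 _ _ (Cov_zs _ 2 3145728 _ _ (chkRoot_sound _ _ _ _ c275) (Cov_zs _ 0 16515072 _ _ (chkRoot_sound _ _ _ _ c276) (chkRoot_sound _ _ _ _ c277))) (chkRoot_sound _ _ _ _ c278))) (Cov_ys _ 0 25165824 _ _ (chkRoot_sound _ _ _ _ c279) (Cov_zs _ 1 1730062 _ _ (Cov_zs _ 2 3145728 _ _ (Cov_zs _ 0 18087936 _ _ (chkRoot_sound _ _ _ _ c280) (chkRoot_sound _ _ _ _ c281))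 (Cov_zs _ 0 18087936 _ _ (chkRoot_sound _ _ _ _ c282) (chkRoot_sound _ _ _ _ c283))) (Cov_zf _ 2825179 _ _ (by decide) (Cov_zs _ 2 3160216 _ _ (chkRoot_sound _ _ _ _ c284) (Cov_zs _ 0 18087936 _ _ (chkRoot_sound _ _ _ _ c285) (chkRoot_sound _ _ _ _ c286))))))) (Cov_zs _ 0 17301504 _ _ (Cov_ys _ 0 25165824 _ _ (chkRoot_sound _ _ _ _ c287) (Cov_zs _ 1 1730062 _ _ (chkRoot_sound _ _ _ _ c288) (Cov_zs _ 2 3844778 _ _ (Cov_zs _ 0 16515072 _ _ (chkRoot_sound _ _ _ _ c289) (chkRoot_sound _ _ _ _ c290)) (Cov_zs _ 0 16515072 _ _ (chkRoot_sound _ _ _ _ c291) (chkRoot_sound _ _ _ _ c292))))) (Cov_zs _ 1 1730062 _ _ (chkRoot_sound _ _ _ _ c293) (Cov_ys _ 0 25165824 _ _ (chkRoot_sound _ _ _ _ c294) (Cov_zs _ 2 3844778 _ _ (Cov_zs _ 0 18087936 _ _ (chkRoot_sound _ _ _ _ c295) (chkRoot_sound _ _ _ _ c296)) (chkRoot_sound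 _ _ _ _ c297))))))) (chkRoot_sound _ _ _ _ c298)))) (Cov_zs _ 1 988607 _ _ (chkRoot_sound _ _ _ _ c299) (Cov_zs _ 2 4194304 _ _ (Cov_zs _ 0 22020096 _ _ (Cov_zs _ 1 1482910 _ _ (chkRoot_sound _ _ _ _ c300) (Cov_zs _ 2 3495253 _ _ (Cov_zs _ 0 20447232 _ _ (Cov_zs _ 1 1730062 _ _ (Cov_ys _ 0 25165824 _ _ (chkRoot_sound _ _ _ _ c301) (Cov_zs _ 2 3145728 _ _ (Cov_zs _ 0 19660800 _ _ (Cov_ys _ 0 37748736 _ _ (chkRoot_sound _ _ _ _ c302) (Cov_zs _ 1 1606486 _ _ (chkRoot_sound _ _ _ _ c303) (chkRoot_sound _ _ _ _ c304))) (Cov_ys _ 0 37748736 _ _ (chkRoot_sound _ _ _ _ c305) (Cov_zs _ 1 1606486 _ _ (chkRoot_sound _ _ _ _ c306) (chkRoot_sound _ _ _ _ c307)))) (chkRoot_sound _ _ _ _ c308))) (Cov_ys _ 0 25165824 _ _ (chkRoot_sound _ _ _ _ c309) (Cov_zs _ 2 3145728 _ _ (Cov_zs _ 0 19660800 _ _ (chkRoot_sound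 _ _ _ _ c310) (chkRoot_sound _ _ _ _ c311)) (Cov_zs _ 0 19660800 _ _ (Cov_ys _ 0 37748736 _ _ (chkRoot_sound _ _ _ _ c312) (Cov_zs _ 1 1853638 _ _ (chkRoot_sound _ _ _ _ c313) (chkRoot_sound _ _ _ _ c314))) (Cov_zs _ 1 1853638 _ _ (chkRoot_sound _ _ _ _ c315) (chkRoot_sound _ _ _ _ c316)))))) (Cov_zs _ 1 1730062 _ _ (Cov_ys _ 0 25165824 _ _ (chkRoot_sound _ _ _ _ c317) (Cov_zs _ 2 3145728 _ _ (Cov_zs _ 0 21233664 _ _ (Cov_zs _ 1 1606486 _ _ (chkRoot_sound _ _ _ _ c318) (Cov_ys _ 0 37748736 _ _ (chkRoot_sound _ _ _ _ c319) (Cov_zs _ 2 2970965 _ _ (chkRoot_sound _ _ _ _ c320) (chkRoot_sound _ _ _ _ c321)))) (chkRoot_sound _ _ _ _ c322)) (chkRoot_sound _ _ _ _ c323))) (Cov_ys _ 0 25165824 _ _ (chkRoot_sound _ _ _ _ c324) (Cov_zs _ 2 3145728 _ _ (Cov_zs _ 0 21233664 _ _ (Cov_ys _ 0 37748736 _ _ (chkRoot_sound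 _ _ _ _ c325) (Cov_zs _ 1 1853638 _ _ (chkRoot_sound _ _ _ _ c326) (chkRoot_sound _ _ _ _ c327))) (Cov_zs _ 1 1853638 _ _ (Cov_ys _ 0 37748736 _ _ (chkRoot_sound _ _ _ _ c328) (chkRoot_sound _ _ _ _ c329)) (chkRoot_sound _ _ _ _ c330))) (Cov_zs _ 0 21233664 _ _ (Cov_zs _ 1 1853638 _ _ (chkRoot_sound _ _ _ _ c331) (Cov_ys _ 0 37748736 _ _ (chkRoot_sound _ _ _ _ c332) (Cov_zs _ 2 3320490 _ _ (chkRoot_sound _ _ _ _ c333) (chkRoot_sound _ _ _ _ c334)))) (Cov_zs _ 1 1853638 _ _ (chkRoot_sound _ _ _ _ c335) (Cov_ys _ 0 37748736 _ _ (chkRoot_sound _ _ _ _ c336) (Cov_zs _ 2 3320490 _ _ (Cov_zs _ 0 21626880 _ _ (chkRoot_sound _ _ _ _ c337) (chkRoot_sound _ _ _ _ c338)) (chkRoot_sound _ _ _ _ c339))))))))) (Cov_zs _ 0 20447232 _ _ (chkRoot_sound _ _ _ _ c340) (chkRoot_sound _ _ _ _ c341)))) (chkRoot_sound _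 _ _ _ c342)) (chkRoot_sound _ _ _ _ c343)))) (Cov_zs _ 0 18874368 _ _ (Cov_zt _ 3424635 _ _ (by decide) (Cov_zf _ 3228776 _ _ (by decide) (Cov_zs _ 2 4410591 _ _ (Cov_zs _ 0 15728640 _ _ (Cov_zt _ 3126250 _ _ (by decide) (Cov_zf _ 3536947 _ _ (by decide) (Cov_zs _ 1 2551732 _ _ (Cov_zs _ 0 14155776 _ _ (chkRoot_sound _ _ _ _ c344) (Cov_ys _ 0 25165824 _ _ (chkRoot_sound _ _ _ _ c345) (Cov_zs _ 2 3973769 _ _ (chkRoot_sound _ _ _ _ c346) (Cov_zs _ 1 2264473 _ _ (chkRoot_sound _ _ _ _ c347) (chkRoot_sound _ _ _ _ c348))))) (chkRoot_sound _ _ _ _ c349)))) (Cov_zs _ 1 2700924 _ _ (Cov_zs _ 2 3819683 _ _ (Cov_zs _ 0 17301504 _ _ (chkRoot_sound _ _ _ _ c350) (Cov_zs _ 1 2339069 _ _ (Cov_ys _ 0 25165824 _ _ (chkRoot_sound _ _ _ _ c351) (Cov_zs _ 2 3524229 _ _ (chkRoot_sound _ _ _ _ c352) (Cov_zs _ 0 18087936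 _ _ (chkRoot_sound _ _ _ _ c353) (chkRoot_sound _ _ _ _ c354)))) (chkRoot_sound _ _ _ _ c355))) (Cov_zs _ 0 17301504 _ _ (Cov_zs _ 1 2339069 _ _ (Cov_ys _ 0 25165824 _ _ (chkRoot_sound _ _ _ _ c356) (Cov_zs _ 0 16515072 _ _ (chkRoot_sound _ _ _ _ c357) (Cov_zs _ 2 4115137 _ _ (chkRoot_sound _ _ _ _ c358) (chkRoot_sound _ _ _ _ c359)))) (chkRoot_sound _ _ _ _ c360)) (Cov_zs _ 1 2339069 _ _ (Cov_zs _ 2 4115137 _ _ (Cov_ys _ 0 25165824 _ _ (chkRoot_sound _ _ _ _ c361) (Cov_zs _ 0 18087936 _ _ (chkRoot_sound _ _ _ _ c362) (chkRoot_sound _ _ _ _ c363))) (Cov_ys _ 0 25165824 _ _ (chkRoot_sound _ _ _ _ c364) (Cov_zs _ 0 18087936 _ _ (chkRoot_sound _ _ _ _ c365) (chkRoot_sound _ _ _ _ c366)))) (Cov_ys _ 0 25165824 _ _ (chkRoot_sound _ _ _ _ c367) (Cov_zs _ 2 4115137 _ _ (chkRoot_sound _ _ _ _ c368) (chkRoot_sound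 _ _ _ _ c369)))))) (chkRoot_sound _ _ _ _ c370))) (Cov_zs _ 0 15728640 _ _ (Cov_zt _ 3126250 _ _ (by decide) (Cov_zs _ 0 14155776 _ _ (Cov_zt _ 2965821 _ _ (by decide) (Cov_zs _ 2 5001498 _ _ (Cov_ys _ 0 25165824 _ _ (chkRoot_sound _ _ _ _ c371) (Cov_zs _ 1 2471517 _ _ (Cov_zs _ 0 13369344 _ _ (chkRoot_sound _ _ _ _ c372) (chkRoot_sound _ _ _ _ c373)) (chkRoot_sound _ _ _ _ c374))) (Cov_ys _ 0 25165824 _ _ (chkRoot_sound _ _ _ _ c375) (Cov_zs _ 1 2471517 _ _ (Cov_zs _ 0 13369344 _ _ (Cov_ys _ 0 37748736 _ _ (chkRoot_sound _ _ _ _ c376) (chkRoot_sound _ _ _ _ c377)) (Cov_ys _ 0 37748736 _ _ (chkRoot_sound _ _ _ _ c378) (Cov_zs _ 1 2224365 _ _ (chkRoot_sound _ _ _ _ c379) (chkRoot_sound _ _ _ _ c380)))) (Cov_zs _ 0 13369344 _ _ (chkRoot_sound _ _ _ _ c381) (chkRoot_sound _ _ _ _ c382)))))) (Cov_zs _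 1 2551732 _ _ (Cov_zs _ 2 5001498 _ _ (Cov_ys _ 0 25165824 _ _ (chkRoot_sound _ _ _ _ c383) (Cov_zs _ 0 14942208 _ _ (Cov_zs _ 1 2264473 _ _ (chkRoot_sound _ _ _ _ c384) (chkRoot_sound _ _ _ _ c385)) (Cov_zs _ 1 2264473 _ _ (Cov_ys _ 0 37748736 _ _ (chkRoot_sound _ _ _ _ c386) (Cov_zs _ 2 4706044 _ _ (chkRoot_sound _ _ _ _ c387) (chkRoot_sound _ _ _ _ c388))) (chkRoot_sound _ _ _ _ c389)))) (Cov_ys _ 0 25165824 _ _ (chkRoot_sound _ _ _ _ c390) (Cov_zs _ 0 14942208 _ _ (Cov_zs _ 1 2264473 _ _ (Cov_ys _ 0 37748736 _ _ (chkRoot_sound _ _ _ _ c391) (chkRoot_sound _ _ _ _ c392)) (Cov_ys _ 0 37748736 _ _ (chkRoot_sound _ _ _ _ c393) (Cov_zs _ 2 5296952 _ _ (chkRoot_sound _ _ _ _ c394) (chkRoot_sound _ _ _ _ c395)))) (Cov_zs _ 1 2264473 _ _ (chkRoot_sound _ _ _ _ c396) (Cov_zs _ 2 5296952 _ _ (chkRoot_sound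 _ _ _ _ c397) (Cov_ys _ 0 37748736 _ _ (chkRoot_sound _ _ _ _ c398) (chkRoot_sound _ _ _ _ c399))))))) (Cov_zf _ 4564676 _ _ (by decide) (Cov_zs _ 2 5078541 _ _ (chkRoot_sound _ _ _ _ c400) (Cov_ys _ 0 25165824 _ _ (chkRoot_sound _ _ _ _ c401) (Cov_zs _ 0 14942208 _ _ (chkRoot_sound _ _ _ _ c402) (chkRoot_sound _ _ _ _ c403)))))))) (Cov_zs _ 1 2700924 _ _ (Cov_zs _ 0 17301504 _ _ (Cov_zs _ 2 5001498 _ _ (Cov_zs _ 1 2339069 _ _ (Cov_ys _ 0 25165824 _ _ (chkRoot_sound _ _ _ _ c404) (Cov_zs _ 0 16515072 _ _ (Cov_zs _ 2 4706044 _ _ (chkRoot_sound _ _ _ _ c405) (chkRoot_sound _ _ _ _ c406)) (Cov_zs _ 2 4706044 _ _ (chkRoot_sound _ _ _ _ c407) (chkRoot_sound _ _ _ _ c408)))) (Cov_ys _ 0 25165824 _ _ (chkRoot_sound _ _ _ _ c409) (Cov_zs _ 0 16515072 _ _ (chkRoot_sound _ _ _ _ c410) (Cov_zs _ 2 4706044 _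 _ (chkRoot_sound _ _ _ _ c411) (chkRoot_sound _ _ _ _ c412))))) (Cov_zs _ 1 2339069 _ _ (chkRoot_sound _ _ _ _ c413) (Cov_ys _ 0 25165824 _ _ (chkRoot_sound _ _ _ _ c414) (Cov_zs _ 0 16515072 _ _ (Cov_zs _ 2 5296952 _ _ (chkRoot_sound _ _ _ _ c415) (Cov_ys _ 0 37748736 _ _ (chkRoot_sound _ _ _ _ c416) (chkRoot_sound _ _ _ _ c417))) (Cov_zs _ 2 5296952 _ _ (chkRoot_sound _ _ _ _ c418) (chkRoot_sound _ _ _ _ c419)))))) (Cov_zs _ 2 5001498 _ _ (Cov_zs _ 1 2339069 _ _ (chkRoot_sound _ _ _ _ c420) (Cov_zs _ 2 4706044 _ _ (Cov_ys _ 0 25165824 _ _ (chkRoot_sound _ _ _ _ c421) (Cov_zs _ 0 18087936 _ _ (chkRoot_sound _ _ _ _ c422) (chkRoot_sound _ _ _ _ c423))) (Cov_zs _ 0 18087936 _ _ (chkRoot_sound _ _ _ _ c424) (chkRoot_sound _ _ _ _ c425)))) (Cov_zs _ 1 2339069 _ _ (chkRoot_sound _ _ _ _ c426) (Cov_zs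 _ 0 18087936 _ _ (chkRoot_sound _ _ _ _ c427) (chkRoot_sound _ _ _ _ c428))))) (Cov_zs _ 2 5001498 _ _ (Cov_zs _ 0 17301504 _ _ (chkRoot_sound _ _ _ _ c429) (Cov_zs _ 1 3062779 _ _ (Cov_zs _ 2 4706044 _ _ (chkRoot_sound _ _ _ _ c430) (chkRoot_sound _ _ _ _ c431)) (chkRoot_sound _ _ _ _ c432))) (Cov_zs _ 0 17301504 _ _ (Cov_zt _ 3278839 _ _ (by decide) (Cov_zs _ 1 2989881 _ _ (Cov_zs _ 0 16515072 _ _ (chkRoot_sound _ _ _ _ c433) (Cov_ys _ 0 25165824 _ _ (chkRoot_sound _ _ _ _ c434) (Cov_zs _ 2 5296952 _ _ (chkRoot_sound _ _ _ _ c435) (chkRoot_sound _ _ _ _ c436)))) (chkRoot_sound _ _ _ _ c437))) (Cov_zs _ 1 3062779 _ _ (Cov_zs _ 2 5296952 _ _ (Cov_zs _ 0 18087936 _ _ (chkRoot_sound _ _ _ _ c438) (Cov_ys _ 0 25165824 _ _ (chkRoot_sound _ _ _ _ c439) (chkRoot_sound _ _ _ _ c440))) (Cov_zs _ 0 18087936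 _ _ (Cov_ys _ 0 25165824 _ _ (chkRoot_sound _ _ _ _ c441) (Cov_zs _ 1 2881851 _ _ (chkRoot_sound _ _ _ _ c442) (chkRoot_sound _ _ _ _ c443))) (Cov_ys _ 0 25165824 _ _ (chkRoot_sound _ _ _ _ c444) (Cov_zs _ 1 2881851 _ _ (chkRoot_sound _ _ _ _ c445) (chkRoot_sound _ _ _ _ c446))))) (Cov_zs _ 2 5296952 _ _ (chkRoot_sound _ _ _ _ c447) (Cov_zs _ 0 18087936 _ _ (chkRoot_sound _ _ _ _ c448) (chkRoot_sound _ _ _ _ c449))))))))))) (Cov_zs _ 2 4194304 _ _ (Cov_zs _ 1 2965821 _ _ (Cov_zs _ 0 22020096 _ _ (Cov_zf _ 2989266 _ _ (by decide) (Cov_zs _ 1 2471517 _ _ (Cov_zs _ 2 3591785 _ _ (Cov_zs _ 0 20447232 _ _ (Cov_zf _ 3102108 _ _ (by decide) (Cov_ys _ 0 25165824 _ _ (chkRoot_sound _ _ _ _ c450) (Cov_zs _ 1 2224365 _ _ (Cov_zs _ 2 3346946 _ _ (chkRoot_sound _ _ _ _ c451) (chkRoot_sound _ _ _ _ c452)) (chkRoot_sound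 _ _ _ _ c453)))) (Cov_zs _ 1 2224365 _ _ (Cov_ys _ 0 25165824 _ _ (chkRoot_sound _ _ _ _ c454) (Cov_zs _ 2 3290525 _ _ (chkRoot_sound _ _ _ _ c455) (Cov_zs _ 0 21233664 _ _ (Cov_ys _ 0 37748736 _ _ (chkRoot_sound _ _ _ _ c456) (Cov_zs _ 1 2100789 _ _ (chkRoot_sound _ _ _ _ c457) (chkRoot_sound _ _ _ _ c458))) (Cov_zs _ 1 2100789 _ _ (Cov_ys _ 0 37748736 _ _ (chkRoot_sound _ _ _ _ c459) (Cov_zs _ 2 3441155 _ _ (chkRoot_sound _ _ _ _ c460) (chkRoot_sound _ _ _ _ c461))) (chkRoot_sound _ _ _ _ c462))))) (chkRoot_sound _ _ _ _ c463))) (Cov_zs _ 0 20447232 _ _ (Cov_zs _ 1 2224365 _ _ (Cov_zs _ 2 3893044 _ _ (Cov_ys _ 0 25165824 _ _ (chkRoot_sound _ _ _ _ c464) (Cov_zs _ 0 19660800 _ _ (Cov_ys _ 0 37748736 _ _ (chkRoot_sound _ _ _ _ c465) (chkRoot_sound _ _ _ _ c466)) (Cov_zs _ 1 2100789 _ _ (chkRoot_sound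 _ _ _ _ c467) (chkRoot_sound _ _ _ _ c468)))) (Cov_ys _ 0 25165824 _ _ (chkRoot_sound _ _ _ _ c469) (chkRoot_sound _ _ _ _ c470))) (Cov_ys _ 0 25165824 _ _ (chkRoot_sound _ _ _ _ c471) (Cov_zs _ 2 3893044 _ _ (chkRoot_sound _ _ _ _ c472) (Cov_zs _ 0 19660800 _ _ (chkRoot_sound _ _ _ _ c473) (chkRoot_sound _ _ _ _ c474))))) (Cov_zs _ 1 2224365 _ _ (Cov_zs _ 2 3893044 _ _ (Cov_ys _ 0 25165824 _ _ (chkRoot_sound _ _ _ _ c475) (Cov_zs _ 0 21233664 _ _ (Cov_zs _ 1 2100789 _ _ (chkRoot_sound _ _ _ _ c476) (chkRoot_sound _ _ _ _ c477)) (Cov_zs _ 1 2100789 _ _ (chkRoot_sound _ _ _ _ c478) (Cov_ys _ 0 37748736 _ _ (chkRoot_sound _ _ _ _ c479) (chkRoot_sound _ _ _ _ c480))))) (chkRoot_sound _ _ _ _ c481)) (Cov_zs _ 2 3893044 _ _ (Cov_ys _ 0 25165824 _ _ (chkRoot_sound _ _ _ _ c482) (Cov_zs _ 0 21233664 _ _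 (chkRoot_sound _ _ _ _ c483) (Cov_zs _ 1 2347941 _ _ (chkRoot_sound _ _ _ _ c484) (chkRoot_sound _ _ _ _ c485)))) (Cov_ys _ 0 25165824 _ _ (chkRoot_sound _ _ _ _ c486) (Cov_zs _ 0 21233664 _ _ (Cov_zs _ 1 2347941 _ _ (chkRoot_sound _ _ _ _ c487) (chkRoot_sound _ _ _ _ c488)) (Cov_zs _ 1 2347941 _ _ (chkRoot_sound _ _ _ _ c489) (chkRoot_sound _ _ _ _ c490)))))))) (Cov_zf _ 3736582 _ _ (by decide) (Cov_zs _ 0 20447232 _ _ (chkRoot_sound _ _ _ _ c491) (Cov_zs _ 1 2718669 _ _ (Cov_ys _ 0 25165824 _ _ (chkRoot_sound _ _ _ _ c492) (Cov_zs _ 2 3965443 _ _ (chkRoot_sound _ _ _ _ c493) (Cov_zs _ 0 21233664 _ _ (chkRoot_sound _ _ _ _ c494) (chkRoot_sound _ _ _ _ c495)))) (chkRoot_sound _ _ _ _ c496)))))) (Cov_zs _ 2 3495253 _ _ (Cov_zs _ 1 2471517 _ _ (Cov_zs _ 0 23592960 _ _ (Cov_zf _ 2887905 _ _ (by decide)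 (Cov_zs _ 1 2224365 _ _ (Cov_ys _ 0 25165824 _ _ (chkRoot_sound _ _ _ _ c497) (Cov_zs _ 2 3191579 _ _ (chkRoot_sound _ _ _ _ c498) (Cov_zs _ 0 22806528 _ _ (Cov_zs _ 1 2100789 _ _ (Cov_ys _ 0 37748736 _ _ (chkRoot_sound _ _ _ _ c499) (Cov_zs _ 2 3343416 _ _ (chkRoot_sound _ _ _ _ c500) (Cov_zs _ 0 22413312 _ _ (chkRoot_sound _ _ _ _ c501) (chkRoot_sound _ _ _ _ c502)))) (chkRoot_sound _ _ _ _ c503)) (chkRoot_sound _ _ _ _ c504)))) (chkRoot_sound _ _ _ _ c505))) (chkRoot_sound _ _ _ _ c506)) (chkRoot_sound _ _ _ _ c507)) (Cov_zs _ 1 2471517 _ _ (Cov_zs _ 0 23592960 _ _ (Cov_zs _ 1 2224365 _ _ (Cov_zs _ 2 3844778 _ _ (Cov_ys _ 0 25165824 _ _ (chkRoot_sound _ _ _ _ c508) (Cov_zs _ 0 22806528 _ _ (Cov_zs _ 1 2100789 _ _ (chkRoot_sound _ _ _ _ c509) (Cov_zs _ 2 3670015 _ _ (Cov_ys _ 0 37748736 _ _ (chkRoot_sound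 _ _ _ _ c510) (Cov_zs _ 0 22413312 _ _ (chkRoot_sound _ _ _ _ c511) (chkRoot_sound _ _ _ _ c512))) (chkRoot_sound _ _ _ _ c513))) (chkRoot_sound _ _ _ _ c514))) (chkRoot_sound _ _ _ _ c515)) (Cov_zs _ 2 3844778 _ _ (Cov_ys _ 0 25165824 _ _ (chkRoot_sound _ _ _ _ c516) (Cov_zs _ 0 22806528 _ _ (Cov_zs _ 1 2347941 _ _ (Cov_ys _ 0 37748736 _ _ (chkRoot_sound _ _ _ _ c517) (Cov_zs _ 2 3670015 _ _ (chkRoot_sound _ _ _ _ c518) (Cov_zs _ 0 22413312 _ _ (chkRoot_sound _ _ _ _ c519) (chkRoot_sound _ _ _ _ c520)))) (chkRoot_sound _ _ _ _ c521)) (Cov_zs _ 1 2347941 _ _ (Cov_zs _ 2 3670015 _ _ (chkRoot_sound _ _ _ _ c522) (Cov_ys _ 0 37748736 _ _ (chkRoot_sound _ _ _ _ c523) (Cov_zs _ 0 23199744 _ _ (chkRoot_sound _ _ _ _ c524) (chkRoot_sound _ _ _ _ c525)))) (Cov_zs _ 2 3670015 _ _ (chkRoot_sound _ _ _ _ c526)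 (Cov_ys _ 0 37748736 _ _ (chkRoot_sound _ _ _ _ c527) (Cov_zs _ 0 23199744 _ _ (chkRoot_sound _ _ _ _ c528) (chkRoot_sound _ _ _ _ c529))))))) (Cov_zs _ 0 22806528 _ _ (Cov_ys _ 0 25165824 _ _ (chkRoot_sound _ _ _ _ c530) (Cov_zs _ 1 2347941 _ _ (chkRoot_sound _ _ _ _ c531) (Cov_zs _ 2 4019541 _ _ (Cov_ys _ 0 37748736 _ _ (chkRoot_sound _ _ _ _ c532) (chkRoot_sound _ _ _ _ c533)) (chkRoot_sound _ _ _ _ c534)))) (Cov_ys _ 0 25165824 _ _ (chkRoot_sound _ _ _ _ c535) (Cov_zs _ 1 2347941 _ _ (chkRoot_sound _ _ _ _ c536) (Cov_zs _ 2 4019541 _ _ (Cov_ys _ 0 37748736 _ _ (chkRoot_sound _ _ _ _ c537) (Cov_zs _ 0 23199744 _ _ (chkRoot_sound _ _ _ _ c538) (chkRoot_sound _ _ _ _ c539))) (chkRoot_sound _ _ _ _ c540))))))) (Cov_zs _ 1 2224365 _ _ (chkRoot_sound _ _ _ _ c541) (Cov_zs _ 2 3844778 _ _ (Cov_ys _ 0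 25165824 _ _ (chkRoot_sound _ _ _ _ c542) (chkRoot_sound _ _ _ _ c543)) (chkRoot_sound _ _ _ _ c544)))) (Cov_zs _ 0 23592960 _ _ (Cov_zf _ 3609881 _ _ (by decide) (Cov_zs _ 1 2718669 _ _ (Cov_zs _ 2 3902092 _ _ (Cov_ys _ 0 25165824 _ _ (chkRoot_sound _ _ _ _ c545) (chkRoot_sound _ _ _ _ c546)) (Cov_ys _ 0 25165824 _ _ (chkRoot_sound _ _ _ _ c547) (Cov_zs _ 0 22806528 _ _ (Cov_zs _ 1 2595093 _ _ (Cov_zs _ 2 4048198 _ _ (chkRoot_sound _ _ _ _ c548) (chkRoot_sound _ _ _ _ c549)) (chkRoot_sound _ _ _ _ c550)) (Cov_zs _ 1 2595093 _ _ (Cov_zs _ 2 4048198 _ _ (chkRoot_sound _ _ _ _ c551) (chkRoot_sound _ _ _ _ c552)) (chkRoot_sound _ _ _ _ c553))))) (chkRoot_sound _ _ _ _ c554))) (Cov_zs _ 2 3844778 _ _ (Cov_zs _ 1 2718669 _ _ (Cov_ys _ 0 25165824 _ _ (chkRoot_sound _ _ _ _ c555) (Cov_zs _ 2 3670015 _ _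 (chkRoot_sound _ _ _ _ c556) (Cov_zs _ 1 2595093 _ _ (chkRoot_sound _ _ _ _ c557) (chkRoot_sound _ _ _ _ c558)))) (chkRoot_sound _ _ _ _ c559)) (Cov_zs _ 1 2718669 _ _ (Cov_zs _ 0 24379392 _ _ (Cov_ys _ 0 25165824 _ _ (chkRoot_sound _ _ _ _ c560) (Cov_zs _ 1 2595093 _ _ (Cov_zs _ 2 4019541 _ _ (Cov_ys _ 0 37748736 _ _ (chkRoot_sound _ _ _ _ c561) (Cov_zs _ 0 23986176 _ _ (chkRoot_sound _ _ _ _ c562) (chkRoot_sound _ _ _ _ c563))) (chkRoot_sound _ _ _ _ c564)) (Cov_zs _ 2 4019541 _ _ (chkRoot_sound _ _ _ _ c565) (Cov_ys _ 0 37748736 _ _ (chkRoot_sound _ _ _ _ c566) (Cov_zs _ 0 23986176 _ _ (chkRoot_sound _ _ _ _ c567) (chkRoot_sound _ _ _ _ c568)))))) (Cov_ys _ 0 25165824 _ _ (chkRoot_sound _ _ _ _ c569) (Cov_zs _ 1 2595093 _ _ (chkRoot_sound _ _ _ _ c570) (Cov_zs _ 2 4019541 _ _ (chkRoot_sound _ _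 _ _ c571) (Cov_zs _ 0 24772608 _ _ (chkRoot_sound _ _ _ _ c572) (chkRoot_sound _ _ _ _ c573)))))) (Cov_zs _ 0 24379392 _ _ (chkRoot_sound _ _ _ _ c574) (Cov_ys _ 0 25165824 _ _ (chkRoot_sound _ _ _ _ c575) (Cov_zs _ 2 4019541 _ _ (chkRoot_sound _ _ _ _ c576) (Cov_zs _ 1 2842245 _ _ (Cov_ys _ 0 37748736 _ _ (chkRoot_sound _ _ _ _ c577) (chkRoot_sound _ _ _ _ c578)) (chkRoot_sound _ _ _ _ c579))))))))))) (chkRoot_sound _ _ _ _ c580)) (Cov_zs _ 1 2965821 _ _ (Cov_zs _ 0 22020096 _ _ (Cov_zs _ 1 2471517 _ _ (Cov_zs _ 2 4893355 _ _ (Cov_zs _ 0 20447232 _ _ (Cov_zs _ 1 2224365 _ _ (chkRoot_sound _ _ _ _ c581) (Cov_zs _ 2 4543829 _ _ (Cov_ys _ 0 25165824 _ _ (chkRoot_sound _ _ _ _ c582) (Cov_zs _ 0 19660800 _ _ (chkRoot_sound _ _ _ _ c583) (chkRoot_sound _ _ _ _ c584))) (chkRoot_sound _ _ _ _ c585))) (chkRoot_sound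 _ _ _ _ c586)) (chkRoot_sound _ _ _ _ c587)) (Cov_zs _ 2 4893355 _ _ (Cov_zs _ 0 20447232 _ _ (Cov_zs _ 2 4543829 _ _ (Cov_zs _ 1 2718669 _ _ (Cov_ys _ 0 25165824 _ _ (chkRoot_sound _ _ _ _ c588) (Cov_zs _ 0 19660800 _ _ (chkRoot_sound _ _ _ _ c589) (chkRoot_sound _ _ _ _ c590))) (chkRoot_sound _ _ _ _ c591)) (Cov_zs _ 1 2718669 _ _ (Cov_zs _ 0 19660800 _ _ (Cov_ys _ 0 25165824 _ _ (chkRoot_sound _ _ _ _ c592) (chkRoot_sound _ _ _ _ c593)) (chkRoot_sound _ _ _ _ c594)) (Cov_zs _ 0 19660800 _ _ (chkRoot_sound _ _ _ _ c595) (Cov_ys _ 0 25165824 _ _ (chkRoot_sound _ _ _ _ c596) (chkRoot_sound _ _ _ _ c597))))) (Cov_zs _ 2 4543829 _ _ (Cov_zs _ 1 2718669 _ _ (Cov_zs _ 0 21233664 _ _ (Cov_ys _ 0 25165824 _ _ (chkRoot_sound _ _ _ _ c598) (Cov_zs _ 2 4369066 _ _ (chkRoot_sound _ _ _ _ c599) (chkRoot_sound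 _ _ _ _ c600))) (Cov_ys _ 0 25165824 _ _ (chkRoot_sound _ _ _ _ c601) (Cov_zs _ 1 2595093 _ _ (chkRoot_sound _ _ _ _ c602) (chkRoot_sound _ _ _ _ c603)))) (Cov_ys _ 0 25165824 _ _ (chkRoot_sound _ _ _ _ c604) (Cov_zs _ 0 21233664 _ _ (chkRoot_sound _ _ _ _ c605) (chkRoot_sound _ _ _ _ c606)))) (Cov_zs _ 1 2718669 _ _ (chkRoot_sound _ _ _ _ c607) (Cov_zs _ 0 21233664 _ _ (Cov_ys _ 0 25165824 _ _ (chkRoot_sound _ _ _ _ c608) (Cov_zs _ 2 4718592 _ _ (chkRoot_sound _ _ _ _ c609) (chkRoot_sound _ _ _ _ c610))) (Cov_ys _ 0 25165824 _ _ (chkRoot_sound _ _ _ _ c611) (Cov_zs _ 2 4718592 _ _ (chkRoot_sound _ _ _ _ c612) (chkRoot_sound _ _ _ _ c613))))))) (Cov_zs _ 0 20447232 _ _ (Cov_zs _ 2 5242880 _ _ (Cov_zs _ 1 2718669 _ _ (chkRoot_sound _ _ _ _ c614) (Cov_zs _ 0 19660800 _ _ (Cov_ys _ 0 25165824 _ _ (chkRoot_sound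 _ _ _ _ c615) (Cov_zs _ 2 5068117 _ _ (chkRoot_sound _ _ _ _ c616) (chkRoot_sound _ _ _ _ c617))) (Cov_ys _ 0 25165824 _ _ (chkRoot_sound _ _ _ _ c618) (Cov_zs _ 2 5068117 _ _ (chkRoot_sound _ _ _ _ c619) (chkRoot_sound _ _ _ _ c620))))) (chkRoot_sound _ _ _ _ c621)) (Cov_zs _ 2 5242880 _ _ (Cov_zs _ 1 2718669 _ _ (chkRoot_sound _ _ _ _ c622) (Cov_zs _ 0 21233664 _ _ (chkRoot_sound _ _ _ _ c623) (chkRoot_sound _ _ _ _ c624))) (chkRoot_sound _ _ _ _ c625))))) (Cov_zs _ 1 2471517 _ _ (chkRoot_sound _ _ _ _ c626) (Cov_zs _ 2 4893355 _ _ (Cov_zs _ 0 23592960 _ _ (Cov_zs _ 2 4543829 _ _ (Cov_zs _ 1 2718669 _ _ (Cov_zs _ 0 22806528 _ _ (Cov_ys _ 0 25165824 _ _ (chkRoot_sound _ _ _ _ c627) (Cov_zs _ 1 2595093 _ _ (chkRoot_sound _ _ _ _ c628) (chkRoot_sound _ _ _ _ c629))) (Cov_ys _ 0 25165824 _ _ (chkRoot_sound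 _ _ _ _ c630) (Cov_zs _ 1 2595093 _ _ (chkRoot_sound _ _ _ _ c631) (chkRoot_sound _ _ _ _ c632)))) (Cov_zs _ 0 22806528 _ _ (Cov_ys _ 0 25165824 _ _ (chkRoot_sound _ _ _ _ c633) (Cov_zs _ 2 4369066 _ _ (chkRoot_sound _ _ _ _ c634) (chkRoot_sound _ _ _ _ c635))) (Cov_ys _ 0 25165824 _ _ (chkRoot_sound _ _ _ _ c636) (Cov_zs _ 2 4369066 _ _ (chkRoot_sound _ _ _ _ c637) (Cov_zs _ 1 2842245 _ _ (chkRoot_sound _ _ _ _ c638) (chkRoot_sound _ _ _ _ c639)))))) (Cov_zs _ 1 2718669 _ _ (chkRoot_sound _ _ _ _ c640) (Cov_zs _ 0 22806528 _ _ (Cov_ys _ 0 25165824 _ _ (chkRoot_sound _ _ _ _ c641) (Cov_zs _ 2 4718592 _ _ (chkRoot_sound _ _ _ _ c642) (chkRoot_sound _ _ _ _ c643))) (Cov_zs _ 2 4718592 _ _ (chkRoot_sound _ _ _ _ c644) (chkRoot_sound _ _ _ _ c645))))) (Cov_zs _ 1 2718669 _ _ (Cov_zs _ 2 4543829 _ _ (Cov_zs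 _ 0 24379392 _ _ (chkRoot_sound _ _ _ _ c646) (chkRoot_sound _ _ _ _ c647)) (chkRoot_sound _ _ _ _ c648)) (Cov_zs _ 2 4543829 _ _ (Cov_zs _ 0 24379392 _ _ (Cov_ys _ 0 25165824 _ _ (chkRoot_sound _ _ _ _ c649) (Cov_zs _ 2 4369066 _ _ (Cov_zs _ 1 2842245 _ _ (Cov_zs _ 0 23986176 _ _ (chkRoot_sound _ _ _ _ c650) (chkRoot_sound _ _ _ _ c651)) (chkRoot_sound _ _ _ _ c652)) (Cov_zs _ 1 2842245 _ _ (chkRoot_sound _ _ _ _ c653) (chkRoot_sound _ _ _ _ c654)))) (Cov_ys _ 0 25165824 _ _ (chkRoot_sound _ _ _ _ c655) (Cov_zs _ 1 2842245 _ _ (Cov_zs _ 2 4369066 _ _ (Cov_zs _ 0 24772608 _ _ (chkRoot_sound _ _ _ _ c656) (chkRoot_sound _ _ _ _ c657)) (chkRoot_sound _ _ _ _ c658)) (Cov_zs _ 2 4369066 _ _ (chkRoot_sound _ _ _ _ c659) (Cov_zs _ 0 24772608 _ _ (chkRoot_sound _ _ _ _ c660) (chkRoot_sound _ _ _ _ c661))))))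 (chkRoot_sound _ _ _ _ c662)))) (chkRoot_sound _ _ _ _ c663)))) (Cov_zs _ 0 22020096 _ _ (Cov_zt _ 3699029 _ _ (by decide) (Cov_zf _ 4483899 _ _ (by decide) (Cov_zs _ 2 5038152 _ _ (Cov_zs _ 1 3332425 _ _ (Cov_zs _ 0 20447232 _ _ (chkRoot_sound _ _ _ _ c664) (Cov_zs _ 2 4761025 _ _ (chkRoot_sound _ _ _ _ c665) (Cov_zs _ 1 3149123 _ _ (Cov_zs _ 0 21233664 _ _ (chkRoot_sound _ _ _ _ c666) (Cov_ys _ 0 25165824 _ _ (chkRoot_sound _ _ _ _ c667) (Cov_zs _ 2 4899588 _ _ (chkRoot_sound _ _ _ _ c668) (chkRoot_sound _ _ _ _ c669)))) (chkRoot_sound _ _ _ _ c670)))) (chkRoot_sound _ _ _ _ c671)) (Cov_zs _ 0 20447232 _ _ (Cov_zt _ 3564473 _ _ (by decide) (Cov_zs _ 1 3265147 _ _ (Cov_zs _ 2 5315279 _ _ (Cov_zs _ 0 19660800 _ _ (chkRoot_sound _ _ _ _ c672) (Cov_ys _ 0 25165824 _ _ (chkRoot_sound _ _ _ _ c673) (Cov_zs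 _ 1 3115484 _ _ (chkRoot_sound _ _ _ _ c674) (chkRoot_sound _ _ _ _ c675)))) (Cov_zs _ 0 19660800 _ _ (Cov_ys _ 0 25165824 _ _ (chkRoot_sound _ _ _ _ c676) (Cov_zs _ 1 3115484 _ _ (chkRoot_sound _ _ _ _ c677) (chkRoot_sound _ _ _ _ c678))) (Cov_ys _ 0 25165824 _ _ (chkRoot_sound _ _ _ _ c679) (Cov_zs _ 1 3115484 _ _ (chkRoot_sound _ _ _ _ c680) (chkRoot_sound _ _ _ _ c681))))) (Cov_zf _ 5122784 _ _ (by decide) (Cov_zs _ 0 19660800 _ _ (chkRoot_sound _ _ _ _ c682) (chkRoot_sound _ _ _ _ c683))))) (Cov_zs _ 1 3332425 _ _ (Cov_zs _ 2 5315279 _ _ (Cov_zs _ 0 21233664 _ _ (Cov_zs _ 1 3149123 _ _ (Cov_ys _ 0 25165824 _ _ (chkRoot_sound _ _ _ _ c684) (Cov_zs _ 2 5176715 _ _ (chkRoot_sound _ _ _ _ c685) (chkRoot_sound _ _ _ _ c686))) (chkRoot_sound _ _ _ _ c687)) (Cov_zs _ 1 3149123 _ _ (chkRoot_sound _ _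 _ _ c688) (Cov_ys _ 0 25165824 _ _ (chkRoot_sound _ _ _ _ c689) (Cov_zs _ 2 5176715 _ _ (chkRoot_sound _ _ _ _ c690) (chkRoot_sound _ _ _ _ c691))))) (Cov_zs _ 0 21233664 _ _ (Cov_ys _ 0 25165824 _ _ (chkRoot_sound _ _ _ _ c692) (Cov_zs _ 1 3149123 _ _ (chkRoot_sound _ _ _ _ c693) (Cov_zs _ 2 5453842 _ _ (chkRoot_sound _ _ _ _ c694) (chkRoot_sound _ _ _ _ c695)))) (Cov_ys _ 0 25165824 _ _ (chkRoot_sound _ _ _ _ c696) (chkRoot_sound _ _ _ _ c697)))) (Cov_zs _ 2 5315279 _ _ (chkRoot_sound _ _ _ _ c698) (Cov_zs _ 0 21233664 _ _ (chkRoot_sound _ _ _ _ c699) (Cov_zs _ 1 3515727 _ _ (Cov_ys _ 0 25165824 _ _ (chkRoot_sound _ _ _ _ c700) (Cov_zs _ 2 5453842 _ _ (chkRoot_sound _ _ _ _ c701) (chkRoot_sound _ _ _ _ c702))) (chkRoot_sound _ _ _ _ c703))))))))) (Cov_zs _ 2 4893355 _ _ (Cov_zs _ 1 3460124 _ _ (Cov_zs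 _ 0 23592960 _ _ (Cov_zf _ 4331858 _ _ (by decide) (Cov_zs _ 1 3212972 _ _ (Cov_zs _ 2 4612606 _ _ (chkRoot_sound _ _ _ _ c704) (Cov_zs _ 0 22806528 _ _ (Cov_ys _ 0 25165824 _ _ (chkRoot_sound _ _ _ _ c705) (Cov_zs _ 1 3089396 _ _ (chkRoot_sound _ _ _ _ c706) (chkRoot_sound _ _ _ _ c707))) (Cov_ys _ 0 25165824 _ _ (chkRoot_sound _ _ _ _ c708) (Cov_zs _ 1 3089396 _ _ (Cov_zs _ 2 4752980 _ _ (chkRoot_sound _ _ _ _ c709) (chkRoot_sound _ _ _ _ c710)) (chkRoot_sound _ _ _ _ c711))))) (chkRoot_sound _ _ _ _ c712))) (Cov_zs _ 2 4543829 _ _ (Cov_zs _ 1 3212972 _ _ (Cov_zs _ 0 24379392 _ _ (chkRoot_sound _ _ _ _ c713) (Cov_ys _ 0 25165824 _ _ (chkRoot_sound _ _ _ _ c714) (Cov_zs _ 2 4369066 _ _ (chkRoot_sound _ _ _ _ c715) (chkRoot_sound _ _ _ _ c716)))) (chkRoot_sound _ _ _ _ c717)) (Cov_zs _ 1 3212972 _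 _ (Cov_zs _ 0 24379392 _ _ (Cov_ys _ 0 25165824 _ _ (chkRoot_sound _ _ _ _ c718) (Cov_zs _ 2 4718592 _ _ (Cov_zs _ 1 3089396 _ _ (chkRoot_sound _ _ _ _ c719) (chkRoot_sound _ _ _ _ c720)) (Cov_zs _ 1 3089396 _ _ (chkRoot_sound _ _ _ _ c721) (chkRoot_sound _ _ _ _ c722)))) (Cov_zs _ 2 4718592 _ _ (Cov_ys _ 0 25165824 _ _ (chkRoot_sound _ _ _ _ c723) (Cov_zs _ 1 3089396 _ _ (Cov_zs _ 0 24772608 _ _ (chkRoot_sound _ _ _ _ c724) (chkRoot_sound _ _ _ _ c725)) (chkRoot_sound _ _ _ _ c726))) (Cov_ys _ 0 25165824 _ _ (chkRoot_sound _ _ _ _ c727) (chkRoot_sound _ _ _ _ c728)))) (Cov_zs _ 0 24379392 _ _ (chkRoot_sound _ _ _ _ c729) (Cov_ys _ 0 25165824 _ _ (chkRoot_sound _ _ _ _ c730) (Cov_zs _ 2 4718592 _ _ (chkRoot_sound _ _ _ _ c731) (chkRoot_sound _ _ _ _ c732))))))) (chkRoot_sound _ _ _ _ c733)) (Cov_zs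 _ 1 3460124 _ _ (Cov_zs _ 0 23592960 _ _ (Cov_zs _ 2 5242880 _ _ (Cov_zs _ 1 3212972 _ _ (Cov_zs _ 0 22806528 _ _ (Cov_zs _ 2 5068117 _ _ (Cov_ys _ 0 25165824 _ _ (chkRoot_sound _ _ _ _ c734) (chkRoot_sound _ _ _ _ c735)) (chkRoot_sound _ _ _ _ c736)) (Cov_zs _ 2 5068117 _ _ (chkRoot_sound _ _ _ _ c737) (chkRoot_sound _ _ _ _ c738))) (Cov_zs _ 0 22806528 _ _ (Cov_zs _ 2 5068117 _ _ (chkRoot_sound _ _ _ _ c739) (chkRoot_sound _ _ _ _ c740)) (Cov_zs _ 2 5068117 _ _ (chkRoot_sound _ _ _ _ c741) (Cov_zs _ 1 3336548 _ _ (chkRoot_sound _ _ _ _ c742) (chkRoot_sound _ _ _ _ c743))))) (Cov_zs _ 1 3212972 _ _ (chkRoot_sound _ _ _ _ c744) (Cov_zs _ 0 22806528 _ _ (Cov_zs _ 2 5417643 _ _ (Cov_ys _ 0 25165824 _ _ (chkRoot_sound _ _ _ _ c745) (Cov_zs _ 1 3336548 _ _ (chkRoot_sound _ _ _ _ c746) (chkRoot_sound _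 _ _ _ c747))) (chkRoot_sound _ _ _ _ c748)) (Cov_zs _ 2 5417643 _ _ (Cov_ys _ 0 25165824 _ _ (chkRoot_sound _ _ _ _ c749) (chkRoot_sound _ _ _ _ c750)) (chkRoot_sound _ _ _ _ c751))))) (Cov_zs _ 2 5242880 _ _ (Cov_zs _ 1 3212972 _ _ (chkRoot_sound _ _ _ _ c752) (Cov_zs _ 0 24379392 _ _ (Cov_zs _ 2 5068117 _ _ (Cov_ys _ 0 25165824 _ _ (chkRoot_sound _ _ _ _ c753) (Cov_zs _ 1 3336548 _ _ (chkRoot_sound _ _ _ _ c754) (chkRoot_sound _ _ _ _ c755))) (Cov_zs _ 1 3336548 _ _ (chkRoot_sound _ _ _ _ c756) (chkRoot_sound _ _ _ _ c757))) (Cov_zs _ 2 5068117 _ _ (Cov_zs _ 1 3336548 _ _ (chkRoot_sound _ _ _ _ c758) (chkRoot_sound _ _ _ _ c759)) (Cov_zs _ 1 3336548 _ _ (chkRoot_sound _ _ _ _ c760) (chkRoot_sound _ _ _ _ c761))))) (chkRoot_sound _ _ _ _ c762))) (Cov_zs _ 0 23592960 _ _ (Cov_zt _ 3828859 _ _ (by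 decide) (Cov_zf _ 5053834 _ _ (by decide) (Cov_zs _ 2 5323120 _ _ (chkRoot_sound _ _ _ _ c763) (Cov_zs _ 1 3644491 _ _ (Cov_zs _ 0 22806528 _ _ (Cov_zs _ 2 5457763 _ _ (chkRoot_sound _ _ _ _ c764) (chkRoot_sound _ _ _ _ c765)) (Cov_zs _ 2 5457763 _ _ (chkRoot_sound _ _ _ _ c766) (Cov_ys _ 0 25165824 _ _ (chkRoot_sound _ _ _ _ c767) (Cov_zs _ 1 3552307 _ _ (chkRoot_sound _ _ _ _ c768) (chkRoot_sound _ _ _ _ c769))))) (chkRoot_sound _ _ _ _ c770))))) (Cov_zs _ 2 5242880 _ _ (Cov_zs _ 1 3707276 _ _ (Cov_zs _ 0 24379392 _ _ (chkRoot_sound _ _ _ _ c771) (Cov_zs _ 2 5068117 _ _ (chkRoot_sound _ _ _ _ c772) (chkRoot_sound _ _ _ _ c773))) (chkRoot_sound _ _ _ _ c774)) (Cov_zs _ 1 3707276 _ _ (Cov_zs _ 0 24379392 _ _ (Cov_zs _ 2 5417643 _ _ (Cov_zs _ 1 3583700 _ _ (chkRoot_sound _ _ _ _ c775) (chkRoot_sound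 _ _ _ _ c776)) (Cov_ys _ 0 25165824 _ _ (chkRoot_sound _ _ _ _ c777) (Cov_zs _ 1 3583700 _ _ (chkRoot_sound _ _ _ _ c778) (chkRoot_sound _ _ _ _ c779)))) (Cov_zs _ 2 5417643 _ _ (Cov_zs _ 1 3583700 _ _ (chkRoot_sound _ _ _ _ c780) (chkRoot_sound _ _ _ _ c781)) (chkRoot_sound _ _ _ _ c782))) (Cov_zs _ 0 24379392 _ _ (chkRoot_sound _ _ _ _ c783) (Cov_zs _ 2 5417643 _ _ (chkRoot_sound _ _ _ _ c784) (Cov_zs _ 1 3830852 _ _ (chkRoot_sound _ _ _ _ c785) (chkRoot_sound _ _ _ _ c786))))))))))))))))) (Cov_zs _ 1 2796203 _ _ (Cov_zs _ 0 37748736 _ _ (Cov_zs _ 2 2796203 _ _ (chkRoot_sound _ _ _ _ c787) (Cov_zs _ 1 1398101 _ _ (chkRoot_sound _ _ _ _ c788) (Cov_zs _ 0 31457280 _ _ (Cov_zs _ 2 4194304 _ _ (chkRoot_sound _ _ _ _ c789) (chkRoot_sound _ _ _ _ c790)) (chkRoot_sound _ _ _ _ c791)))) (chkRoot_sound _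 _ _ _ c792)) (Cov_zf _ 2796203 _ _ (by decide) (Cov_zs _ 1 4194304 _ _ (Cov_zs _ 0 37748736 _ _ (Cov_zf _ 3228777 _ _ (by decide) (Cov_zs _ 2 4410591 _ _ (Cov_zs _ 1 3495253 _ _ (Cov_zs _ 0 31457280 _ _ (Cov_zf _ 3536948 _ _ (by decide) (Cov_zs _ 0 28311552 _ _ (Cov_zf _ 3728270 _ _ (by decide) (Cov_zs _ 1 3145728 _ _ (Cov_zs _ 2 4069430 _ _ (chkRoot_sound _ _ _ _ c793) (Cov_zs _ 0 26738688 _ _ (Cov_zs _ 1 2970965 _ _ (Cov_zs _ 0 25952256 _ _ (Cov_ys _ 0 25165824 _ _ (chkRoot_sound _ _ _ _ c794) (Cov_zs _ 2 4240010 _ _ (Cov_zs _ 1 2883584 _ _ (chkRoot_sound _ _ _ _ c795) (chkRoot_sound _ _ _ _ c796)) (Cov_zs _ 1 2883584 _ _ (Cov_zs _ 0 25559040 _ _ (chkRoot_sound _ _ _ _ c797) (chkRoot_sound _ _ _ _ c798)) (Cov_zs _ 0 25559040 _ _ (chkRoot_sound _ _ _ _ c799) (chkRoot_sound _ _ _ _ c800))))) (chkRoot_sound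 _ _ _ _ c801)) (Cov_zf _ 4076130 _ _ (by decide) (Cov_zs _ 2 4243360 _ _ (chkRoot_sound _ _ _ _ c802) (Cov_zs _ 0 25952256 _ _ (chkRoot_sound _ _ _ _ c803) (Cov_ys _ 0 25165824 _ _ (chkRoot_sound _ _ _ _ c804) (Cov_zs _ 1 3058346 _ _ (chkRoot_sound _ _ _ _ c805) (chkRoot_sound _ _ _ _ c806))))))) (chkRoot_sound _ _ _ _ c807))) (chkRoot_sound _ _ _ _ c808))) (chkRoot_sound _ _ _ _ c809))) (chkRoot_sound _ _ _ _ c810)) (chkRoot_sound _ _ _ _ c811)) (Cov_zs _ 0 31457280 _ _ (Cov_zs _ 1 3495253 _ _ (Cov_zs _ 0 28311552 _ _ (Cov_zs _ 2 5001498 _ _ (Cov_zs _ 1 3145728 _ _ (Cov_zs _ 0 26738688 _ _ (Cov_zs _ 2 4706044 _ _ (Cov_zs _ 1 2970965 _ _ (Cov_zs _ 0 25952256 _ _ (Cov_ys _ 0 25165824 _ _ (chkRoot_sound _ _ _ _ c812) (chkRoot_sound _ _ _ _ c813)) (chkRoot_sound _ _ _ _ c814)) (Cov_zs _ 0 25952256 _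 _ (Cov_ys _ 0 25165824 _ _ (chkRoot_sound _ _ _ _ c815) (Cov_zs _ 2 4558317 _ _ (Cov_zs _ 1 3058346 _ _ (Cov_zs _ 0 25559040 _ _ (chkRoot_sound _ _ _ _ c816) (chkRoot_sound _ _ _ _ c817)) (chkRoot_sound _ _ _ _ c818)) (Cov_zs _ 1 3058346 _ _ (chkRoot_sound _ _ _ _ c819) (Cov_zs _ 0 25559040 _ _ (chkRoot_sound _ _ _ _ c820) (chkRoot_sound _ _ _ _ c821))))) (Cov_ys _ 0 25165824 _ _ (chkRoot_sound _ _ _ _ c822) (Cov_zs _ 2 4558317 _ _ (Cov_zs _ 1 3058346 _ _ (Cov_zs _ 0 26345472 _ _ (chkRoot_sound _ _ _ _ c823) (chkRoot_sound _ _ _ _ c824)) (Cov_zs _ 0 26345472 _ _ (chkRoot_sound _ _ _ _ c825) (chkRoot_sound _ _ _ _ c826))) (chkRoot_sound _ _ _ _ c827))))) (chkRoot_sound _ _ _ _ c828)) (chkRoot_sound _ _ _ _ c829)) (Cov_zs _ 0 26738688 _ _ (Cov_zs _ 2 4706044 _ _ (Cov_zs _ 1 3320490 _ _ (Cov_zs _ 0 25952256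 _ _ (Cov_ys _ 0 25165824 _ _ (chkRoot_sound _ _ _ _ c830) (Cov_zs _ 2 4558317 _ _ (chkRoot_sound _ _ _ _ c831) (chkRoot_sound _ _ _ _ c832))) (Cov_ys _ 0 25165824 _ _ (chkRoot_sound _ _ _ _ c833) (Cov_zs _ 2 4558317 _ _ (chkRoot_sound _ _ _ _ c834) (Cov_zs _ 1 3233109 _ _ (Cov_zs _ 0 26345472 _ _ (chkRoot_sound _ _ _ _ c835) (chkRoot_sound _ _ _ _ c836)) (chkRoot_sound _ _ _ _ c837))))) (chkRoot_sound _ _ _ _ c838)) (Cov_zs _ 1 3320490 _ _ (Cov_zs _ 0 25952256 _ _ (Cov_zs _ 2 4853771 _ _ (Cov_ys _ 0 25165824 _ _ (chkRoot_sound _ _ _ _ c839) (Cov_zs _ 1 3233109 _ _ (chkRoot_sound _ _ _ _ c840) (chkRoot_sound _ _ _ _ c841))) (chkRoot_sound _ _ _ _ c842)) (Cov_zs _ 2 4853771 _ _ (Cov_ys _ 0 25165824 _ _ (chkRoot_sound _ _ _ _ c843) (Cov_zs _ 1 3233109 _ _ (chkRoot_sound _ _ _ _ c844) (Cov_zs _ 0 26345472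 _ _ (chkRoot_sound _ _ _ _ c845) (chkRoot_sound _ _ _ _ c846)))) (chkRoot_sound _ _ _ _ c847))) (Cov_zs _ 0 25952256 _ _ (Cov_ys _ 0 25165824 _ _ (chkRoot_sound _ _ _ _ c848) (Cov_zs _ 2 4853771 _ _ (chkRoot_sound _ _ _ _ c849) (Cov_zs _ 1 3407871 _ _ (chkRoot_sound _ _ _ _ c850) (chkRoot_sound _ _ _ _ c851)))) (Cov_ys _ 0 25165824 _ _ (chkRoot_sound _ _ _ _ c852) (Cov_zs _ 2 4853771 _ _ (chkRoot_sound _ _ _ _ c853) (Cov_zs _ 1 3407871 _ _ (chkRoot_sound _ _ _ _ c854) (chkRoot_sound _ _ _ _ c855))))))) (Cov_zs _ 2 4706044 _ _ (Cov_zs _ 1 3320490 _ _ (Cov_zs _ 0 27525120 _ _ (Cov_ys _ 0 25165824 _ _ (chkRoot_sound _ _ _ _ c856) (Cov_zs _ 2 4558317 _ _ (Cov_zs _ 1 3233109 _ _ (chkRoot_sound _ _ _ _ c857) (chkRoot_sound _ _ _ _ c858)) (Cov_zs _ 1 3233109 _ _ (Cov_zs _ 0 27131904 _ _ (chkRoot_sound _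 _ _ _ c859) (chkRoot_sound _ _ _ _ c860)) (Cov_zs _ 0 27131904 _ _ (chkRoot_sound _ _ _ _ c861) (chkRoot_sound _ _ _ _ c862))))) (Cov_ys _ 0 25165824 _ _ (chkRoot_sound _ _ _ _ c863) (Cov_zs _ 2 4558317 _ _ (chkRoot_sound _ _ _ _ c864) (chkRoot_sound _ _ _ _ c865)))) (Cov_zf _ 4427320 _ _ (by decide) (Cov_zs _ 0 27525120 _ _ (chkRoot_sound _ _ _ _ c866) (Cov_ys _ 0 25165824 _ _ (chkRoot_sound _ _ _ _ c867) (Cov_zs _ 2 4566682 _ _ (chkRoot_sound _ _ _ _ c868) (Cov_zs _ 1 3407871 _ _ (chkRoot_sound _ _ _ _ c869) (chkRoot_sound _ _ _ _ c870))))))) (Cov_zs _ 1 3320490 _ _ (Cov_zs _ 0 27525120 _ _ (Cov_zs _ 2 4853771 _ _ (Cov_ys _ 0 25165824 _ _ (chkRoot_sound _ _ _ _ c871) (Cov_zs _ 1 3233109 _ _ (chkRoot_sound _ _ _ _ c872) (chkRoot_sound _ _ _ _ c873))) (chkRoot_sound _ _ _ _ c874)) (chkRoot_sound _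 _ _ _ c875)) (Cov_zs _ 0 27525120 _ _ (Cov_zs _ 2 4853771 _ _ (Cov_ys _ 0 25165824 _ _ (chkRoot_sound _ _ _ _ c876) (Cov_zs _ 1 3407871 _ _ (Cov_zs _ 0 27131904 _ _ (chkRoot_sound _ _ _ _ c877) (chkRoot_sound _ _ _ _ c878)) (chkRoot_sound _ _ _ _ c879))) (Cov_ys _ 0 25165824 _ _ (chkRoot_sound _ _ _ _ c880) (Cov_zs _ 1 3407871 _ _ (chkRoot_sound _ _ _ _ c881) (Cov_zs _ 0 27131904 _ _ (chkRoot_sound _ _ _ _ c882) (chkRoot_sound _ _ _ _ c883))))) (Cov_zs _ 2 4853771 _ _ (Cov_ys _ 0 25165824 _ _ (chkRoot_sound _ _ _ _ c884) (Cov_zs _ 1 3407871 _ _ (Cov_zs _ 0 27918336 _ _ (chkRoot_sound _ _ _ _ c885) (chkRoot_sound _ _ _ _ c886)) (Cov_zs _ 0 27918336 _ _ (chkRoot_sound _ _ _ _ c887) (chkRoot_sound _ _ _ _ c888)))) (Cov_ys _ 0 25165824 _ _ (chkRoot_sound _ _ _ _ c889) (Cov_zs _ 1 3407871 _ _ (chkRoot_sound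 _ _ _ _ c890) (chkRoot_sound _ _ _ _ c891))))))))) (Cov_zs _ 1 3145728 _ _ (chkRoot_sound _ _ _ _ c892) (Cov_zs _ 0 26738688 _ _ (Cov_zs _ 2 5296952 _ _ (Cov_zs _ 1 3320490 _ _ (chkRoot_sound _ _ _ _ c893) (Cov_zs _ 0 25952256 _ _ (Cov_zs _ 2 5149225 _ _ (Cov_ys _ 0 25165824 _ _ (chkRoot_sound _ _ _ _ c894) (Cov_zs _ 1 3407871 _ _ (chkRoot_sound _ _ _ _ c895) (chkRoot_sound _ _ _ _ c896))) (chkRoot_sound _ _ _ _ c897)) (chkRoot_sound _ _ _ _ c898))) (chkRoot_sound _ _ _ _ c899)) (chkRoot_sound _ _ _ _ c900)))) (Cov_zs _ 2 5001498 _ _ (Cov_zs _ 1 3145728 _ _ (chkRoot_sound _ _ _ _ c901) (Cov_zs _ 0 29884416 _ _ (Cov_zs _ 2 4706044 _ _ (Cov_zs _ 1 3320490 _ _ (chkRoot_sound _ _ _ _ c902) (Cov_zs _ 0 29097984 _ _ (Cov_ys _ 0 25165824 _ _ (chkRoot_sound _ _ _ _ c903) (Cov_zs _ 2 4558317 _ _ (chkRoot_sound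 _ _ _ _ c904) (chkRoot_sound _ _ _ _ c905))) (chkRoot_sound _ _ _ _ c906))) (Cov_zs _ 1 3320490 _ _ (chkRoot_sound _ _ _ _ c907) (Cov_zs _ 0 29097984 _ _ (Cov_zs _ 2 4853771 _ _ (Cov_ys _ 0 25165824 _ _ (chkRoot_sound _ _ _ _ c908) (Cov_zs _ 1 3407871 _ _ (chkRoot_sound _ _ _ _ c909) (Cov_zs _ 0 28704768 _ _ (chkRoot_sound _ _ _ _ c910) (chkRoot_sound _ _ _ _ c911)))) (chkRoot_sound _ _ _ _ c912)) (chkRoot_sound _ _ _ _ c913)))) (chkRoot_sound _ _ _ _ c914))) (chkRoot_sound _ _ _ _ c915))) (Cov_zs _ 2 5001498 _ _ (Cov_zf _ 4421184 _ _ (by decide) (Cov_zs _ 0 28311552 _ _ (Cov_zf _ 4660337 _ _ (by decide) (Cov_zs _ 1 3844778 _ _ (Cov_zs _ 0 26738688 _ _ (chkRoot_sound _ _ _ _ c916) (Cov_zs _ 1 3670015 _ _ (Cov_zs _ 2 4830917 _ _ (chkRoot_sound _ _ _ _ c917) (Cov_zs _ 0 27525120 _ _ (Cov_ys _ 0 25165824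 _ _ (chkRoot_sound _ _ _ _ c918) (Cov_zs _ 1 3582634 _ _ (chkRoot_sound _ _ _ _ c919) (chkRoot_sound _ _ _ _ c920))) (Cov_ys _ 0 25165824 _ _ (chkRoot_sound _ _ _ _ c921) (Cov_zs _ 1 3582634 _ _ (Cov_zs _ 2 4916207 _ _ (chkRoot_sound _ _ _ _ c922) (Cov_zs _ 0 27918336 _ _ (chkRoot_sound _ _ _ _ c923) (chkRoot_sound _ _ _ _ c924))) (chkRoot_sound _ _ _ _ c925))))) (chkRoot_sound _ _ _ _ c926))) (chkRoot_sound _ _ _ _ c927))) (Cov_zs _ 1 3844778 _ _ (Cov_zs _ 2 4711341 _ _ (chkRoot_sound _ _ _ _ c928) (Cov_zs _ 0 29884416 _ _ (Cov_zs _ 1 3670015 _ _ (Cov_zs _ 0 29097984 _ _ (Cov_zs _ 2 4856419 _ _ (Cov_ys _ 0 25165824 _ _ (chkRoot_sound _ _ _ _ c929) (Cov_zs _ 1 3582634 _ _ (Cov_zs _ 2 4783880 _ _ (chkRoot_sound _ _ _ _ c930) (chkRoot_sound _ _ _ _ c931)) (chkRoot_sound _ _ _ _ c932))) (Cov_ys _ 0 25165824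 _ _ (chkRoot_sound _ _ _ _ c933) (Cov_zs _ 1 3582634 _ _ (Cov_zs _ 0 28704768 _ _ (chkRoot_sound _ _ _ _ c934) (chkRoot_sound _ _ _ _ c935)) (Cov_zs _ 0 28704768 _ _ (chkRoot_sound _ _ _ _ c936) (chkRoot_sound _ _ _ _ c937))))) (Cov_zs _ 2 4856419 _ _ (Cov_ys _ 0 25165824 _ _ (chkRoot_sound _ _ _ _ c938) (Cov_zs _ 1 3582634 _ _ (chkRoot_sound _ _ _ _ c939) (chkRoot_sound _ _ _ _ c940))) (Cov_ys _ 0 25165824 _ _ (chkRoot_sound _ _ _ _ c941) (Cov_zs _ 1 3582634 _ _ (chkRoot_sound _ _ _ _ c942) (Cov_zs _ 0 29491200 _ _ (chkRoot_sound _ _ _ _ c943) (Cov_ys _ 0 37748736 _ _ (chkRoot_sound _ _ _ _ c944) (chkRoot_sound _ _ _ _ c945))))))) (Cov_zf _ 4762840 _ _ (by decide) (Cov_zs _ 0 29097984 _ _ (chkRoot_sound _ _ _ _ c946) (Cov_ys _ 0 25165824 _ _ (chkRoot_sound _ _ _ _ c947) (Cov_zs _ 2 4882169 _ _ (chkRoot_sound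 _ _ _ _ c948) (Cov_zs _ 1 3757396 _ _ (chkRoot_sound _ _ _ _ c949) (chkRoot_sound _ _ _ _ c950))))))) (Cov_zs _ 1 3670015 _ _ (chkRoot_sound _ _ _ _ c951) (Cov_zs _ 2 4856419 _ _ (chkRoot_sound _ _ _ _ c952) (Cov_zs _ 0 30670848 _ _ (Cov_ys _ 0 25165824 _ _ (chkRoot_sound _ _ _ _ c953) (Cov_zs _ 1 3757396 _ _ (Cov_zs _ 2 4928958 _ _ (chkRoot_sound _ _ _ _ c954) (chkRoot_sound _ _ _ _ c955)) (chkRoot_sound _ _ _ _ c956))) (Cov_ys _ 0 25165824 _ _ (chkRoot_sound _ _ _ _ c957) (Cov_zs _ 1 3757396 _ _ (chkRoot_sound _ _ _ _ c958) (chkRoot_sound _ _ _ _ c959)))))))) (chkRoot_sound _ _ _ _ c960)))) (Cov_zs _ 0 28311552 _ _ (Cov_zs _ 1 3844778 _ _ (Cov_zs _ 0 26738688 _ _ (Cov_zs _ 2 5296952 _ _ (Cov_zs _ 1 3670015 _ _ (Cov_zs _ 0 25952256 _ _ (Cov_zs _ 2 5149225 _ _ (chkRoot_sound _ _ _ _ c961) (Cov_ys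 _ 0 25165824 _ _ (chkRoot_sound _ _ _ _ c962) (Cov_zs _ 1 3582634 _ _ (chkRoot_sound _ _ _ _ c963) (chkRoot_sound _ _ _ _ c964)))) (Cov_zs _ 2 5149225 _ _ (Cov_ys _ 0 25165824 _ _ (chkRoot_sound _ _ _ _ c965) (Cov_zs _ 1 3582634 _ _ (chkRoot_sound _ _ _ _ c966) (chkRoot_sound _ _ _ _ c967))) (Cov_zs _ 1 3582634 _ _ (chkRoot_sound _ _ _ _ c968) (chkRoot_sound _ _ _ _ c969)))) (Cov_zf _ 5035219 _ _ (by decide) (Cov_zs _ 0 25952256 _ _ (chkRoot_sound _ _ _ _ c970) (Cov_ys _ 0 25165824 _ _ (chkRoot_sound _ _ _ _ c971) (chkRoot_sound _ _ _ _ c972))))) (Cov_zs _ 1 3670015 _ _ (Cov_zs _ 0 25952256 _ _ (Cov_zs _ 2 5444679 _ _ (chkRoot_sound _ _ _ _ c973) (chkRoot_sound _ _ _ _ c974)) (chkRoot_sound _ _ _ _ c975)) (Cov_zs _ 0 25952256 _ _ (Cov_zs _ 2 5444679 _ _ (chkRoot_sound _ _ _ _ c976) (Cov_ys _ 0 25165824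 _ _ (chkRoot_sound _ _ _ _ c977) (Cov_zs _ 1 3757396 _ _ (chkRoot_sound _ _ _ _ c978) (chkRoot_sound _ _ _ _ c979)))) (Cov_zs _ 2 5444679 _ _ (Cov_zs _ 1 3757396 _ _ (chkRoot_sound _ _ _ _ c980) (chkRoot_sound _ _ _ _ c981)) (chkRoot_sound _ _ _ _ c982))))) (Cov_zs _ 2 5296952 _ _ (Cov_zs _ 1 3670015 _ _ (Cov_zs _ 0 27525120 _ _ (Cov_zs _ 2 5149225 _ _ (Cov_ys _ 0 25165824 _ _ (chkRoot_sound _ _ _ _ c983) (Cov_zs _ 1 3582634 _ _ (chkRoot_sound _ _ _ _ c984) (chkRoot_sound _ _ _ _ c985))) (chkRoot_sound _ _ _ _ c986)) (Cov_zs _ 2 5149225 _ _ (Cov_ys _ 0 25165824 _ _ (chkRoot_sound _ _ _ _ c987) (Cov_zs _ 1 3582634 _ _ (chkRoot_sound _ _ _ _ c988) (Cov_zs _ 0 27918336 _ _ (chkRoot_sound _ _ _ _ c989) (chkRoot_sound _ _ _ _ c990)))) (chkRoot_sound _ _ _ _ c991))) (Cov_zs _ 0 27525120 _ _ (Cov_zs _ 2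 5149225 _ _ (chkRoot_sound _ _ _ _ c992) (Cov_ys _ 0 25165824 _ _ (chkRoot_sound _ _ _ _ c993) (Cov_zs _ 1 3757396 _ _ (chkRoot_sound _ _ _ _ c994) (chkRoot_sound _ _ _ _ c995)))) (Cov_zs _ 2 5149225 _ _ (Cov_ys _ 0 25165824 _ _ (chkRoot_sound _ _ _ _ c996) (chkRoot_sound _ _ _ _ c997)) (Cov_zs _ 1 3757396 _ _ (chkRoot_sound _ _ _ _ c998) (chkRoot_sound _ _ _ _ c999))))) (Cov_zs _ 1 3670015 _ _ (chkRoot_sound _ _ _ _ c1000) (Cov_zs _ 0 27525120 _ _ (Cov_zs _ 2 5444679 _ _ (Cov_zs _ 1 3757396 _ _ (chkRoot_sound _ _ _ _ c1001) (chkRoot_sound _ _ _ _ c1002)) (chkRoot_sound _ _ _ _ c1003)) (chkRoot_sound _ _ _ _ c1004))))) (Cov_zf _ 5126370 _ _ (by decide) (Cov_zs _ 0 26738688 _ _ (Cov_zt _ 4076131 _ _ (by decide) (Cov_zf _ 5274991 _ _ (by decide) (Cov_zs _ 0 25952256 _ _ (chkRoot_sound _ _ _ _ c1005)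 (Cov_zs _ 2 5433698 _ _ (chkRoot_sound _ _ _ _ c1006) (Cov_zs _ 1 3960454 _ _ (chkRoot_sound _ _ _ _ c1007) (chkRoot_sound _ _ _ _ c1008)))))) (Cov_zs _ 2 5359388 _ _ (Cov_zs _ 1 4019541 _ _ (Cov_zs _ 0 27525120 _ _ (chkRoot_sound _ _ _ _ c1009) (Cov_zs _ 2 5242879 _ _ (chkRoot_sound _ _ _ _ c1010) (chkRoot_sound _ _ _ _ c1011))) (chkRoot_sound _ _ _ _ c1012)) (Cov_zs _ 1 4019541 _ _ (Cov_zs _ 0 27525120 _ _ (Cov_zs _ 2 5475897 _ _ (chkRoot_sound _ _ _ _ c1013) (Cov_zs _ 1 3932159 _ _ (chkRoot_sound _ _ _ _ c1014) (chkRoot_sound _ _ _ _ c1015))) (Cov_zs _ 2 5475897 _ _ (Cov_zs _ 1 3932159 _ _ (chkRoot_sound _ _ _ _ c1016) (chkRoot_sound _ _ _ _ c1017)) (Cov_zs _ 1 3932159 _ _ (chkRoot_sound _ _ _ _ c1018) (chkRoot_sound _ _ _ _ c1019)))) (Cov_zs _ 0 27525120 _ _ (chkRoot_sound _ _ _ _ c1020) (chkRoot_sound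 _ _ _ _ c1021))))))) (Cov_zs _ 1 3844778 _ _ (Cov_zs _ 0 29884416 _ _ (Cov_zs _ 2 5296952 _ _ (Cov_zs _ 1 3670015 _ _ (Cov_zs _ 0 29097984 _ _ (Cov_zs _ 2 5149225 _ _ (Cov_zs _ 1 3582634 _ _ (chkRoot_sound _ _ _ _ c1022) (Cov_ys _ 0 25165824 _ _ (chkRoot_sound _ _ _ _ c1023) (chkRoot_sound _ _ _ _ c1024))) (chkRoot_sound _ _ _ _ c1025)) (chkRoot_sound _ _ _ _ c1026)) (Cov_zs _ 0 29097984 _ _ (Cov_zs _ 2 5149225 _ _ (Cov_ys _ 0 25165824 _ _ (chkRoot_sound _ _ _ _ c1027) (Cov_zs _ 1 3757396 _ _ (Cov_zs _ 0 28704768 _ _ (chkRoot_sound _ _ _ _ c1028) (chkRoot_sound _ _ _ _ c1029)) (chkRoot_sound _ _ _ _ c1030))) (Cov_zs _ 1 3757396 _ _ (chkRoot_sound _ _ _ _ c1031) (Cov_ys _ 0 25165824 _ _ (chkRoot_sound _ _ _ _ c1032) (Cov_zs _ 0 28704768 _ _ (chkRoot_sound _ _ _ _ c1033) (chkRoot_sound _ _ _ _ c1034)))))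 (Cov_zs _ 2 5149225 _ _ (Cov_ys _ 0 25165824 _ _ (chkRoot_sound _ _ _ _ c1035) (Cov_zs _ 1 3757396 _ _ (Cov_zs _ 0 29491200 _ _ (chkRoot_sound _ _ _ _ c1036) (chkRoot_sound _ _ _ _ c1037)) (Cov_zs _ 2 5075361 _ _ (chkRoot_sound _ _ _ _ c1038) (chkRoot_sound _ _ _ _ c1039)))) (Cov_zs _ 1 3757396 _ _ (chkRoot_sound _ _ _ _ c1040) (chkRoot_sound _ _ _ _ c1041))))) (chkRoot_sound _ _ _ _ c1042)) (Cov_zs _ 2 5296952 _ _ (Cov_zs _ 1 3670015 _ _ (chkRoot_sound _ _ _ _ c1043) (Cov_zs _ 0 30670848 _ _ (Cov_zs _ 2 5149225 _ _ (Cov_zs _ 1 3757396 _ _ (Cov_ys _ 0 25165824 _ _ (chkRoot_sound _ _ _ _ c1044) (Cov_zs _ 0 30277632 _ _ (chkRoot_sound _ _ _ _ c1045) (chkRoot_sound _ _ _ _ c1046))) (Cov_ys _ 0 25165824 _ _ (chkRoot_sound _ _ _ _ c1047) (Cov_zs _ 2 5075361 _ _ (Cov_zs _ 0 30277632 _ _ (chkRoot_sound _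 _ _ _ c1048) (chkRoot_sound _ _ _ _ c1049)) (Cov_zs _ 0 30277632 _ _ (chkRoot_sound _ _ _ _ c1050) (chkRoot_sound _ _ _ _ c1051))))) (chkRoot_sound _ _ _ _ c1052)) (Cov_zs _ 2 5149225 _ _ (Cov_zs _ 1 3757396 _ _ (chkRoot_sound _ _ _ _ c1053) (Cov_ys _ 0 25165824 _ _ (chkRoot_sound _ _ _ _ c1054) (Cov_zs _ 2 5075361 _ _ (chkRoot_sound _ _ _ _ c1055) (chkRoot_sound _ _ _ _ c1056)))) (chkRoot_sound _ _ _ _ c1057)))) (chkRoot_sound _ _ _ _ c1058))) (Cov_zs _ 0 29884416 _ _ (Cov_zs _ 2 5296952 _ _ (Cov_zs _ 1 4019541 _ _ (Cov_zs _ 2 5149225 _ _ (chkRoot_sound _ _ _ _ c1059) (Cov_zs _ 0 29097984 _ _ (Cov_ys _ 0 25165824 _ _ (chkRoot_sound _ _ _ _ c1060) (Cov_zs _ 1 3932159 _ _ (chkRoot_sound _ _ _ _ c1061) (chkRoot_sound _ _ _ _ c1062))) (Cov_zs _ 1 3932159 _ _ (Cov_ys _ 0 25165824 _ _ (chkRoot_sound _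 _ _ _ c1063) (Cov_zs _ 2 5223088 _ _ (chkRoot_sound _ _ _ _ c1064) (chkRoot_sound _ _ _ _ c1065))) (chkRoot_sound _ _ _ _ c1066)))) (chkRoot_sound _ _ _ _ c1067)) (Cov_zs _ 1 4019541 _ _ (Cov_zs _ 0 29097984 _ _ (Cov_zs _ 2 5444679 _ _ (Cov_zs _ 1 3932159 _ _ (chkRoot_sound _ _ _ _ c1068) (chkRoot_sound _ _ _ _ c1069)) (chkRoot_sound _ _ _ _ c1070)) (Cov_zs _ 2 5444679 _ _ (Cov_zs _ 1 3932159 _ _ (chkRoot_sound _ _ _ _ c1071) (Cov_zs _ 0 29491200 _ _ (chkRoot_sound _ _ _ _ c1072) (chkRoot_sound _ _ _ _ c1073))) (chkRoot_sound _ _ _ _ c1074))) (Cov_zs _ 0 29097984 _ _ (Cov_zs _ 2 5444679 _ _ (chkRoot_sound _ _ _ _ c1075) (Cov_zs _ 1 4106922 _ _ (chkRoot_sound _ _ _ _ c1076) (chkRoot_sound _ _ _ _ c1077))) (Cov_zs _ 2 5444679 _ _ (Cov_zs _ 1 4106922 _ _ (chkRoot_sound _ _ _ _ c1078) (chkRoot_sound _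 _ _ _ c1079)) (Cov_zs _ 1 4106922 _ _ (chkRoot_sound _ _ _ _ c1080) (chkRoot_sound _ _ _ _ c1081)))))) (Cov_zs _ 2 5296952 _ _ (Cov_zs _ 1 4019541 _ _ (Cov_zs _ 2 5149225 _ _ (Cov_zs _ 0 30670848 _ _ (Cov_ys _ 0 25165824 _ _ (chkRoot_sound _ _ _ _ c1082) (Cov_zs _ 1 3932159 _ _ (Cov_zs _ 2 5075361 _ _ (chkRoot_sound _ _ _ _ c1083) (chkRoot_sound _ _ _ _ c1084)) (chkRoot_sound _ _ _ _ c1085))) (Cov_ys _ 0 25165824 _ _ (chkRoot_sound _ _ _ _ c1086) (Cov_zs _ 1 3932159 _ _ (Cov_zs _ 2 5075361 _ _ (chkRoot_sound _ _ _ _ c1087) (Cov_zs _ 0 31064064 _ _ (chkRoot_sound _ _ _ _ c1088) (chkRoot_sound _ _ _ _ c1089))) (chkRoot_sound _ _ _ _ c1090)))) (Cov_zs _ 0 30670848 _ _ (Cov_zs _ 1 3932159 _ _ (Cov_ys _ 0 25165824 _ _ (chkRoot_sound _ _ _ _ c1091) (Cov_zs _ 2 5223088 _ _ (Cov_zs _ 0 30277632 _ _ (chkRoot_sound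 _ _ _ _ c1092) (chkRoot_sound _ _ _ _ c1093)) (chkRoot_sound _ _ _ _ c1094))) (Cov_ys _ 0 25165824 _ _ (chkRoot_sound _ _ _ _ c1095) (Cov_zs _ 2 5223088 _ _ (chkRoot_sound _ _ _ _ c1096) (chkRoot_sound _ _ _ _ c1097)))) (Cov_zs _ 1 3932159 _ _ (chkRoot_sound _ _ _ _ c1098) (Cov_ys _ 0 25165824 _ _ (chkRoot_sound _ _ _ _ c1099) (Cov_zs _ 2 5223088 _ _ (Cov_zs _ 0 31064064 _ _ (chkRoot_sound _ _ _ _ c1100) (chkRoot_sound _ _ _ _ c1101)) (chkRoot_sound _ _ _ _ c1102)))))) (Cov_zf _ 5084361 _ _ (by decide) (Cov_zs _ 0 30670848 _ _ (chkRoot_sound _ _ _ _ c1103) (Cov_zs _ 2 5190656 _ _ (chkRoot_sound _ _ _ _ c1104) (Cov_ys _ 0 25165824 _ _ (chkRoot_sound _ _ _ _ c1105) (Cov_zs _ 1 4106922 _ _ (chkRoot_sound _ _ _ _ c1106) (chkRoot_sound _ _ _ _ c1107))))))) (Cov_zs _ 1 4019541 _ _ (Cov_zs _ 0 30670848 _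 _ (chkRoot_sound _ _ _ _ c1108) (chkRoot_sound _ _ _ _ c1109)) (Cov_zs _ 0 30670848 _ _ (Cov_zs _ 2 5444679 _ _ (Cov_zs _ 1 4106922 _ _ (Cov_zs _ 0 30277632 _ _ (chkRoot_sound _ _ _ _ c1110) (chkRoot_sound _ _ _ _ c1111)) (chkRoot_sound _ _ _ _ c1112)) (Cov_zs _ 1 4106922 _ _ (chkRoot_sound _ _ _ _ c1113) (chkRoot_sound _ _ _ _ c1114))) (Cov_zs _ 2 5444679 _ _ (Cov_zs _ 1 4106922 _ _ (Cov_zs _ 0 31064064 _ _ (chkRoot_sound _ _ _ _ c1115) (chkRoot_sound _ _ _ _ c1116)) (Cov_zs _ 2 5370815 _ _ (chkRoot_sound _ _ _ _ c1117) (chkRoot_sound _ _ _ _ c1118))) (chkRoot_sound _ _ _ _ c1119)))))))))) (Cov_zs _ 1 3495253 _ _ (chkRoot_sound _ _ _ _ c1120) (Cov_zs _ 2 5001498 _ _ (Cov_zs _ 0 34603008 _ _ (Cov_zs _ 1 3844778 _ _ (chkRoot_sound _ _ _ _ c1121) (Cov_zf _ 4636976 _ _ (by decide) (Cov_zs _ 0 33030144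 _ _ (Cov_zf _ 4746097 _ _ (by decide) (Cov_zs _ 1 4019541 _ _ (Cov_zs _ 2 4873797 _ _ (chkRoot_sound _ _ _ _ c1122) (Cov_zs _ 0 32243712 _ _ (chkRoot_sound _ _ _ _ c1123) (chkRoot_sound _ _ _ _ c1124))) (chkRoot_sound _ _ _ _ c1125))) (chkRoot_sound _ _ _ _ c1126)))) (chkRoot_sound _ _ _ _ c1127)) (Cov_zs _ 0 34603008 _ _ (Cov_zs _ 1 3844778 _ _ (chkRoot_sound _ _ _ _ c1128) (Cov_zs _ 2 5296952 _ _ (Cov_zs _ 0 33030144 _ _ (Cov_zs _ 1 4019541 _ _ (Cov_zs _ 2 5149225 _ _ (Cov_zs _ 0 32243712 _ _ (Cov_zs _ 1 3932159 _ _ (chkRoot_sound _ _ _ _ c1129) (Cov_ys _ 0 25165824 _ _ (chkRoot_sound _ _ _ _ c1130) (Cov_zs _ 2 5075361 _ _ (chkRoot_sound _ _ _ _ c1131) (Cov_zs _ 0 31850496 _ _ (chkRoot_sound _ _ _ _ c1132) (chkRoot_sound _ _ _ _ c1133))))) (chkRoot_sound _ _ _ _ c1134)) (Cov_zs _ 0 32243712 _ _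 (Cov_zs _ 1 3932159 _ _ (chkRoot_sound _ _ _ _ c1135) (Cov_zs _ 2 5223088 _ _ (Cov_ys _ 0 25165824 _ _ (chkRoot_sound _ _ _ _ c1136) (Cov_zs _ 0 31850496 _ _ (chkRoot_sound _ _ _ _ c1137) (chkRoot_sound _ _ _ _ c1138))) (chkRoot_sound _ _ _ _ c1139))) (chkRoot_sound _ _ _ _ c1140))) (Cov_zs _ 2 5149225 _ _ (Cov_zs _ 0 32243712 _ _ (chkRoot_sound _ _ _ _ c1141) (Cov_ys _ 0 25165824 _ _ (chkRoot_sound _ _ _ _ c1142) (Cov_zs _ 1 4106922 _ _ (chkRoot_sound _ _ _ _ c1143) (chkRoot_sound _ _ _ _ c1144)))) (Cov_zs _ 0 32243712 _ _ (Cov_zs _ 1 4106922 _ _ (Cov_ys _ 0 25165824 _ _ (chkRoot_sound _ _ _ _ c1145) (Cov_zs _ 2 5223088 _ _ (chkRoot_sound _ _ _ _ c1146) (Cov_zs _ 0 31850496 _ _ (chkRoot_sound _ _ _ _ c1147) (chkRoot_sound _ _ _ _ c1148)))) (chkRoot_sound _ _ _ _ c1149)) (Cov_zs _ 1 4106922 _ _ (Cov_zs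 _ 2 5223088 _ _ (Cov_ys _ 0 25165824 _ _ (chkRoot_sound _ _ _ _ c1150) (Cov_zs _ 0 32636928 _ _ (chkRoot_sound _ _ _ _ c1151) (chkRoot_sound _ _ _ _ c1152))) (chkRoot_sound _ _ _ _ c1153)) (Cov_ys _ 0 25165824 _ _ (chkRoot_sound _ _ _ _ c1154) (Cov_zs _ 2 5223088 _ _ (chkRoot_sound _ _ _ _ c1155) (Cov_zs _ 0 32636928 _ _ (chkRoot_sound _ _ _ _ c1156) (chkRoot_sound _ _ _ _ c1157)))))))) (Cov_zs _ 1 4019541 _ _ (chkRoot_sound _ _ _ _ c1158) (Cov_zs _ 2 5149225 _ _ (chkRoot_sound _ _ _ _ c1159) (Cov_zs _ 0 33816576 _ _ (Cov_zs _ 1 4106922 _ _ (chkRoot_sound _ _ _ _ c1160) (Cov_zs _ 2 5223088 _ _ (chkRoot_sound _ _ _ _ c1161) (Cov_ys _ 0 25165824 _ _ (chkRoot_sound _ _ _ _ c1162) (Cov_zs _ 0 33423360 _ _ (chkRoot_sound _ _ _ _ c1163) (chkRoot_sound _ _ _ _ c1164))))) (chkRoot_sound _ _ _ _ c1165)))))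 (Cov_zs _ 0 33030144 _ _ (Cov_zs _ 1 4019541 _ _ (chkRoot_sound _ _ _ _ c1166) (Cov_zs _ 2 5444679 _ _ (Cov_zs _ 0 32243712 _ _ (Cov_zs _ 1 4106922 _ _ (chkRoot_sound _ _ _ _ c1167) (Cov_zs _ 2 5370815 _ _ (chkRoot_sound _ _ _ _ c1168) (chkRoot_sound _ _ _ _ c1169))) (Cov_zs _ 1 4106922 _ _ (chkRoot_sound _ _ _ _ c1170) (Cov_zs _ 2 5370815 _ _ (Cov_zs _ 0 32636928 _ _ (chkRoot_sound _ _ _ _ c1171) (chkRoot_sound _ _ _ _ c1172)) (chkRoot_sound _ _ _ _ c1173)))) (chkRoot_sound _ _ _ _ c1174))) (chkRoot_sound _ _ _ _ c1175)))) (chkRoot_sound _ _ _ _ c1176))))))) (chkRoot_sound _ _ _ _ c1177)) (Cov_zf _ 4194304 _ _ (by decide) (Cov_zs _ 0 37748736 _ _ (Cov_zt _ 4843166 _ _ (by decide) (Cov_zf _ 4843165 _ _ (by decide) (Cov_zs _ 0 31457280 _ _ (Cov_zt _ 4421185 _ _ (by decide) (Cov_zf _ 5305421 _ _ (by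 decide) (Cov_zs _ 0 28311552 _ _ (chkRoot_sound _ _ _ _ c1178) (Cov_zs _ 0 29884416 _ _ (chkRoot_sound _ _ _ _ c1179) (Cov_zs _ 2 5448913 _ _ (chkRoot_sound _ _ _ _ c1180) (Cov_zs _ 0 30670848 _ _ (chkRoot_sound _ _ _ _ c1181) (Cov_zs _ 1 4307744 _ _ (Cov_zs _ 0 31064064 _ _ (chkRoot_sound _ _ _ _ c1182) (chkRoot_sound _ _ _ _ c1183)) (chkRoot_sound _ _ _ _ c1184)))))))) (Cov_zs _ 0 34603008 _ _ (Cov_zt _ 4636978 _ _ (by decide) (Cov_zf _ 5058520 _ _ (by decide) (Cov_zs _ 2 5325463 _ _ (Cov_zs _ 1 4415641 _ _ (Cov_zs _ 0 33030144 _ _ (Cov_zf _ 5177561 _ _ (by decide) (Cov_zs _ 1 4304972 _ _ (Cov_zs _ 0 32243712 _ _ (chkRoot_sound _ _ _ _ c1185) (chkRoot_sound _ _ _ _ c1186)) (chkRoot_sound _ _ _ _ c1187))) (Cov_zs _ 2 5191991 _ _ (chkRoot_sound _ _ _ _ c1188) (Cov_zs _ 1 4304972 _ _ (Cov_zs _ 0 33816576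 _ _ (Cov_zs _ 1 4249638 _ _ (Cov_ys _ 0 25165824 _ _ (chkRoot_sound _ _ _ _ c1189) (Cov_zs _ 2 5258727 _ _ (chkRoot_sound _ _ _ _ c1190) (chkRoot_sound _ _ _ _ c1191))) (chkRoot_sound _ _ _ _ c1192)) (Cov_zs _ 1 4249638 _ _ (chkRoot_sound _ _ _ _ c1193) (Cov_ys _ 0 25165824 _ _ (chkRoot_sound _ _ _ _ c1194) (Cov_zs _ 2 5258727 _ _ (chkRoot_sound _ _ _ _ c1195) (chkRoot_sound _ _ _ _ c1196))))) (Cov_zs _ 0 33816576 _ _ (chkRoot_sound _ _ _ _ c1197) (chkRoot_sound _ _ _ _ c1198))))) (chkRoot_sound _ _ _ _ c1199)) (Cov_zs _ 1 4415641 _ _ (Cov_zs _ 0 33030144 _ _ (Cov_zs _ 0 32243712 _ _ (Cov_zs _ 2 5458934 _ _ (Cov_zs _ 1 4304972 _ _ (Cov_zs _ 0 31850496 _ _ (chkRoot_sound _ _ _ _ c1200) (chkRoot_sound _ _ _ _ c1201)) (chkRoot_sound _ _ _ _ c1202)) (Cov_zs _ 1 4304972 _ _ (chkRoot_sound _ _ _ _ c1203)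 (chkRoot_sound _ _ _ _ c1204))) (Cov_zs _ 1 4304972 _ _ (Cov_zs _ 2 5458934 _ _ (Cov_zs _ 0 32636928 _ _ (Cov_ys _ 0 25165824 _ _ (chkRoot_sound _ _ _ _ c1205) (Cov_zs _ 2 5392198 _ _ (chkRoot_sound _ _ _ _ c1206) (chkRoot_sound _ _ _ _ c1207))) (Cov_ys _ 0 25165824 _ _ (chkRoot_sound _ _ _ _ c1208) (Cov_zs _ 2 5392198 _ _ (chkRoot_sound _ _ _ _ c1209) (chkRoot_sound _ _ _ _ c1210)))) (chkRoot_sound _ _ _ _ c1211)) (Cov_zs _ 2 5458934 _ _ (chkRoot_sound _ _ _ _ c1212) (Cov_zs _ 0 32636928 _ _ (chkRoot_sound _ _ _ _ c1213) (chkRoot_sound _ _ _ _ c1214))))) (Cov_zs _ 1 4304972 _ _ (Cov_zs _ 0 33816576 _ _ (Cov_zs _ 2 5458934 _ _ (Cov_zs _ 1 4249638 _ _ (chkRoot_sound _ _ _ _ c1215) (Cov_zs _ 2 5392198 _ _ (chkRoot_sound _ _ _ _ c1216) (chkRoot_sound _ _ _ _ c1217))) (chkRoot_sound _ _ _ _ c1218)) (Cov_zs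 _ 2 5458934 _ _ (Cov_zs _ 1 4249638 _ _ (chkRoot_sound _ _ _ _ c1219) (chkRoot_sound _ _ _ _ c1220)) (chkRoot_sound _ _ _ _ c1221))) (Cov_zs _ 2 5458934 _ _ (Cov_zs _ 0 33816576 _ _ (Cov_zs _ 2 5392198 _ _ (chkRoot_sound _ _ _ _ c1222) (Cov_zs _ 1 4360306 _ _ (chkRoot_sound _ _ _ _ c1223) (chkRoot_sound _ _ _ _ c1224))) (Cov_zs _ 1 4360306 _ _ (Cov_zs _ 2 5392198 _ _ (chkRoot_sound _ _ _ _ c1225) (chkRoot_sound _ _ _ _ c1226)) (Cov_zs _ 2 5392198 _ _ (chkRoot_sound _ _ _ _ c1227) (chkRoot_sound _ _ _ _ c1228)))) (Cov_zs _ 0 33816576 _ _ (Cov_zs _ 0 33423360 _ _ (chkRoot_sound _ _ _ _ c1229) (chkRoot_sound _ _ _ _ c1230)) (chkRoot_sound _ _ _ _ c1231))))) (Cov_zs _ 0 33030144 _ _ (chkRoot_sound _ _ _ _ c1232) (Cov_zs _ 2 5458934 _ _ (chkRoot_sound _ _ _ _ c1233) (Cov_zs _ 1 4526309 _ _ (Cov_zs _ 0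 33816576 _ _ (Cov_zs _ 2 5525670 _ _ (chkRoot_sound _ _ _ _ c1234) (chkRoot_sound _ _ _ _ c1235)) (Cov_zs _ 2 5525670 _ _ (Cov_zs _ 1 4470975 _ _ (chkRoot_sound _ _ _ _ c1236) (chkRoot_sound _ _ _ _ c1237)) (chkRoot_sound _ _ _ _ c1238))) (chkRoot_sound _ _ _ _ c1239)))))))) (Cov_zs _ 1 4518735 _ _ (Cov_zs _ 2 5217785 _ _ (chkRoot_sound _ _ _ _ c1240) (Cov_zs _ 0 36175872 _ _ (Cov_zs _ 1 4356519 _ _ (Cov_zs _ 2 5405095 _ _ (Cov_zs _ 0 35389440 _ _ (Cov_zs _ 1 4275411 _ _ (chkRoot_sound _ _ _ _ c1241) (Cov_zs _ 2 5311440 _ _ (chkRoot_sound _ _ _ _ c1242) (chkRoot_sound _ _ _ _ c1243))) (chkRoot_sound _ _ _ _ c1244)) (chkRoot_sound _ _ _ _ c1245)) (Cov_zs _ 2 5405095 _ _ (Cov_zs _ 0 35389440 _ _ (Cov_zs _ 1 4437627 _ _ (Cov_zs _ 2 5311440 _ _ (chkRoot_sound _ _ _ _ c1246) (Cov_zs _ 0 34996224 _ _ (chkRoot_sound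 _ _ _ _ c1247) (chkRoot_sound _ _ _ _ c1248))) (chkRoot_sound _ _ _ _ c1249)) (Cov_zs _ 1 4437627 _ _ (Cov_zs _ 2 5311440 _ _ (chkRoot_sound _ _ _ _ c1250) (chkRoot_sound _ _ _ _ c1251)) (Cov_zf _ 5234339 _ _ (by decide) (Cov_zs _ 2 5319717 _ _ (chkRoot_sound _ _ _ _ c1252) (Cov_zs _ 0 35782656 _ _ (chkRoot_sound _ _ _ _ c1253) (chkRoot_sound _ _ _ _ c1254)))))) (Cov_zs _ 0 35389440 _ _ (Cov_zs _ 1 4437627 _ _ (chkRoot_sound _ _ _ _ c1255) (Cov_zs _ 2 5498750 _ _ (Cov_zs _ 0 34996224 _ _ (chkRoot_sound _ _ _ _ c1256) (chkRoot_sound _ _ _ _ c1257)) (chkRoot_sound _ _ _ _ c1258))) (Cov_zs _ 1 4437627 _ _ (chkRoot_sound _ _ _ _ c1259) (Cov_zs _ 2 5498750 _ _ (Cov_zs _ 0 35782656 _ _ (chkRoot_sound _ _ _ _ c1260) (chkRoot_sound _ _ _ _ c1261)) (chkRoot_sound _ _ _ _ c1262)))))) (Cov_zs _ 1 4356519 _ _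 (chkRoot_sound _ _ _ _ c1263) (Cov_zs _ 2 5405095 _ _ (Cov_zs _ 0 36962304 _ _ (Cov_zs _ 1 4437627 _ _ (chkRoot_sound _ _ _ _ c1264) (Cov_zs _ 2 5311440 _ _ (chkRoot_sound _ _ _ _ c1265) (chkRoot_sound _ _ _ _ c1266))) (chkRoot_sound _ _ _ _ c1267)) (chkRoot_sound _ _ _ _ c1268))))) (Cov_zf _ 5217785 _ _ (by decide) (Cov_zs _ 0 36175872 _ _ (Cov_zt _ 4741193 _ _ (by decide) (Cov_zf _ 5330009 _ _ (by decide) (Cov_zs _ 2 5461207 _ _ (Cov_zs _ 1 4629964 _ _ (Cov_zs _ 0 35389440 _ _ (chkRoot_sound _ _ _ _ c1269) (chkRoot_sound _ _ _ _ c1270)) (chkRoot_sound _ _ _ _ c1271)) (Cov_zs _ 1 4629964 _ _ (Cov_zs _ 0 35389440 _ _ (Cov_zs _ 2 5526806 _ _ (chkRoot_sound _ _ _ _ c1272) (Cov_zs _ 1 4574349 _ _ (chkRoot_sound _ _ _ _ c1273) (chkRoot_sound _ _ _ _ c1274))) (Cov_zs _ 1 4574349 _ _ (Cov_zs _ 2 5526806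 _ _ (chkRoot_sound _ _ _ _ c1275) (chkRoot_sound _ _ _ _ c1276)) (Cov_zs _ 2 5526806 _ _ (chkRoot_sound _ _ _ _ c1277) (chkRoot_sound _ _ _ _ c1278)))) (chkRoot_sound _ _ _ _ c1279))))) (Cov_zs _ 2 5405095 _ _ (Cov_zs _ 1 4680950 _ _ (Cov_zs _ 0 36962304 _ _ (chkRoot_sound _ _ _ _ c1280) (Cov_zs _ 1 4599842 _ _ (chkRoot_sound _ _ _ _ c1281) (chkRoot_sound _ _ _ _ c1282))) (chkRoot_sound _ _ _ _ c1283)) (Cov_zs _ 1 4680950 _ _ (Cov_zs _ 0 36962304 _ _ (Cov_zs _ 1 4599842 _ _ (Cov_zs _ 2 5498750 _ _ (Cov_zs _ 0 36569088 _ _ (chkRoot_sound _ _ _ _ c1284) (chkRoot_sound _ _ _ _ c1285)) (chkRoot_sound _ _ _ _ c1286)) (Cov_zs _ 2 5498750 _ _ (chkRoot_sound _ _ _ _ c1287) (chkRoot_sound _ _ _ _ c1288))) (Cov_zs _ 1 4599842 _ _ (chkRoot_sound _ _ _ _ c1289) (Cov_zs _ 2 5498750 _ _ (Cov_zs _ 0 37355520 _ _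 (chkRoot_sound _ _ _ _ c1290) (chkRoot_sound _ _ _ _ c1291)) (chkRoot_sound _ _ _ _ c1292)))) (Cov_zs _ 0 36962304 _ _ (chkRoot_sound _ _ _ _ c1293) (Cov_zs _ 2 5498750 _ _ (chkRoot_sound _ _ _ _ c1294) (Cov_zs _ 1 4762058 _ _ (chkRoot_sound _ _ _ _ c1295) (chkRoot_sound _ _ _ _ c1296))))))))))))) (Cov_zs _ 1 4893355 _ _ (Cov_zs _ 0 44040192 _ _ (Cov_zf _ 4483899 _ _ (by decide) (Cov_zs _ 2 5038152 _ _ (chkRoot_sound _ _ _ _ c1297) (Cov_zs _ 0 40894464 _ _ (Cov_zs _ 1 4543829 _ _ (chkRoot_sound _ _ _ _ c1298) (Cov_zs _ 2 5315279 _ _ (chkRoot_sound _ _ _ _ c1299) (Cov_zs _ 0 39321600 _ _ (Cov_zs _ 1 4718592 _ _ (Cov_zs _ 2 5453842 _ _ (Cov_zs _ 0 38535168 _ _ (Cov_zs _ 1 4631210 _ _ (chkRoot_sound _ _ _ _ c1300) (Cov_zs _ 2 5384560 _ _ (chkRoot_sound _ _ _ _ c1301) (Cov_zs _ 0 38141952 _ _ (chkRoot_sound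 _ _ _ _ c1302) (chkRoot_sound _ _ _ _ c1303)))) (chkRoot_sound _ _ _ _ c1304)) (Cov_zs _ 0 38535168 _ _ (Cov_zs _ 1 4631210 _ _ (chkRoot_sound _ _ _ _ c1305) (Cov_zs _ 2 5523124 _ _ (Cov_zs _ 0 38141952 _ _ (chkRoot_sound _ _ _ _ c1306) (chkRoot_sound _ _ _ _ c1307)) (chkRoot_sound _ _ _ _ c1308))) (chkRoot_sound _ _ _ _ c1309))) (Cov_zf _ 5338477 _ _ (by decide) (Cov_zs _ 2 5465441 _ _ (Cov_zs _ 0 38535168 _ _ (chkRoot_sound _ _ _ _ c1310) (Cov_zs _ 1 4805973 _ _ (chkRoot_sound _ _ _ _ c1311) (chkRoot_sound _ _ _ _ c1312))) (Cov_zs _ 0 38535168 _ _ (Cov_zs _ 1 4805973 _ _ (Cov_zs _ 2 5528923 _ _ (Cov_zs _ 0 38141952 _ _ (chkRoot_sound _ _ _ _ c1313) (chkRoot_sound _ _ _ _ c1314)) (chkRoot_sound _ _ _ _ c1315)) (chkRoot_sound _ _ _ _ c1316)) (Cov_zs _ 1 4805973 _ _ (Cov_zs _ 2 5528923 _ _ (Cov_zs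 _ 0 38928384 _ _ (chkRoot_sound _ _ _ _ c1317) (chkRoot_sound _ _ _ _ c1318)) (chkRoot_sound _ _ _ _ c1319)) (Cov_zs _ 2 5528923 _ _ (chkRoot_sound _ _ _ _ c1320) (Cov_zs _ 0 38928384 _ _ (chkRoot_sound _ _ _ _ c1321) (chkRoot_sound _ _ _ _ c1322)))))))) (Cov_zs _ 1 4718592 _ _ (chkRoot_sound _ _ _ _ c1323) (Cov_zs _ 2 5453842 _ _ (Cov_zs _ 1 4805973 _ _ (chkRoot_sound _ _ _ _ c1324) (chkRoot_sound _ _ _ _ c1325)) (Cov_zs _ 0 40108032 _ _ (Cov_zs _ 1 4805973 _ _ (chkRoot_sound _ _ _ _ c1326) (Cov_zs _ 2 5523124 _ _ (Cov_zs _ 0 39714816 _ _ (chkRoot_sound _ _ _ _ c1327) (chkRoot_sound _ _ _ _ c1328)) (Cov_zs _ 0 39714816 _ _ (chkRoot_sound _ _ _ _ c1329) (chkRoot_sound _ _ _ _ c1330)))) (chkRoot_sound _ _ _ _ c1331))))))) (chkRoot_sound _ _ _ _ c1332)))) (chkRoot_sound _ _ _ _ c1333)) (Cov_zf _ 4893355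 _ _ (by decide) (Cov_zs _ 0 44040192 _ _ (Cov_zt _ 5231217 _ _ (by decide) (Cov_zf _ 5231216 _ _ (by decide) (Cov_zs _ 0 40894464 _ _ (Cov_zt _ 5040927 _ _ (by decide) (Cov_zf _ 5428689 _ _ (by decide) (Cov_zs _ 0 39321600 _ _ (chkRoot_sound _ _ _ _ c1334) (Cov_zs _ 0 40108032 _ _ (Cov_zt _ 4992221 _ _ (by decide) (Cov_zf _ 5481654 _ _ (by decide) (Cov_zs _ 1 4942788 _ _ (chkRoot_sound _ _ _ _ c1335) (chkRoot_sound _ _ _ _ c1336)))) (Cov_zs _ 1 4967141 _ _ (Cov_zs _ 2 5510547 _ _ (chkRoot_sound _ _ _ _ c1337) (Cov_zs _ 0 40501248 _ _ (chkRoot_sound _ _ _ _ c1338) (chkRoot_sound _ _ _ _ c1339))) (chkRoot_sound _ _ _ _ c1340)))))) (Cov_zs _ 1 5062286 _ _ (Cov_zs _ 0 42467328 _ _ (Cov_zf _ 5327210 _ _ (by decide) (Cov_zs _ 2 5459808 _ _ (chkRoot_sound _ _ _ _ c1341) (Cov_zs _ 0 41680896 _ _ (Cov_zs _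 1 4977820 _ _ (Cov_zs _ 2 5526107 _ _ (chkRoot_sound _ _ _ _ c1342) (chkRoot_sound _ _ _ _ c1343)) (Cov_zf _ 5470049 _ _ (by decide) (Cov_zs _ 2 5531227 _ _ (chkRoot_sound _ _ _ _ c1344) (Cov_zs _ 0 41287680 _ _ (chkRoot_sound _ _ _ _ c1345) (chkRoot_sound _ _ _ _ c1346))))) (Cov_zs _ 1 4977820 _ _ (chkRoot_sound _ _ _ _ c1347) (Cov_zs _ 2 5526107 _ _ (chkRoot_sound _ _ _ _ c1348) (Cov_zs _ 0 42074112 _ _ (chkRoot_sound _ _ _ _ c1349) (chkRoot_sound _ _ _ _ c1350))))))) (chkRoot_sound _ _ _ _ c1351)) (Cov_zf _ 5411811 _ _ (by decide) (Cov_zs _ 0 42467328 _ _ (chkRoot_sound _ _ _ _ c1352) (Cov_zs _ 1 5146751 _ _ (Cov_zs _ 0 43253760 _ _ (Cov_zf _ 5460788 _ _ (by decide) (Cov_zs _ 2 5526597 _ _ (chkRoot_sound _ _ _ _ c1353) (Cov_zs _ 1 5104518 _ _ (chkRoot_sound _ _ _ _ c1354) (chkRoot_sound _ _ _ _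 c1355)))) (Cov_zs _ 2 5502108 _ _ (chkRoot_sound _ _ _ _ c1356) (chkRoot_sound _ _ _ _ c1357))) (Cov_zf _ 5502108 _ _ (by decide) (Cov_zs _ 0 43253760 _ _ (chkRoot_sound _ _ _ _ c1358) (Cov_zs _ 1 5188984 _ _ (Cov_zs _ 0 43646976 _ _ (chkRoot_sound _ _ _ _ c1359) (chkRoot_sound _ _ _ _ c1360)) (chkRoot_sound _ _ _ _ c1361))))))))))) (Cov_zs _ 1 5242880 _ _ (Cov_zs _ 2 5242880 _ _ (chkRoot_sound _ _ _ _ c1362) (Cov_zs _ 0 47185920 _ _ (Cov_zs _ 1 5068117 _ _ (chkRoot_sound _ _ _ _ c1363) (Cov_zs _ 2 5417643 _ _ (chkRoot_sound _ _ _ _ c1364) (Cov_zs _ 0 45613056 _ _ (Cov_zs _ 1 5155498 _ _ (chkRoot_sound _ _ _ _ c1365) (Cov_zs _ 0 44826624 _ _ (Cov_zf _ 5462899 _ _ (by decide) (Cov_zs _ 2 5527652 _ _ (chkRoot_sound _ _ _ _ c1366) (Cov_zs _ 1 5199189 _ _ (chkRoot_sound _ _ _ _ c1367) (chkRoot_sound _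 _ _ _ c1368)))) (chkRoot_sound _ _ _ _ c1369))) (chkRoot_sound _ _ _ _ c1370)))) (chkRoot_sound _ _ _ _ c1371))) (Cov_zf _ 5242880 _ _ (by decide) (Cov_zs _ 0 47185920 _ _ (Cov_zt _ 5414824 _ _ (by decide) (Cov_zf _ 5414823 _ _ (by decide) (Cov_zs _ 0 45613056 _ _ (Cov_zt _ 5323812 _ _ (by decide) (Cov_zf _ 5507390 _ _ (by decide) (Cov_zs _ 0 44826624 _ _ (chkRoot_sound _ _ _ _ c1372) (Cov_zs _ 1 5283346 _ _ (chkRoot_sound _ _ _ _ c1373) (chkRoot_sound _ _ _ _ c1374))))) (Cov_zs _ 1 5328852 _ _ (Cov_zs _ 2 5503614 _ _ (chkRoot_sound _ _ _ _ c1375) (Cov_zs _ 0 46399488 _ _ (Cov_zs _ 1 5285866 _ _ (chkRoot_sound _ _ _ _ c1376) (chkRoot_sound _ _ _ _ c1377)) (chkRoot_sound _ _ _ _ c1378))) (Cov_zf _ 5503614 _ _ (by decide) (Cov_zs _ 0 46399488 _ _ (chkRoot_sound _ _ _ _ c1379) (Cov_zs _ 1 5371838 _ _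 (chkRoot_sound _ _ _ _ c1380) (chkRoot_sound _ _ _ _ c1381)))))))) (Cov_zs _ 1 5417643 _ _ (Cov_zs _ 2 5417643 _ _ (chkRoot_sound _ _ _ _ c1382) (Cov_zs _ 0 48758784 _ _ (Cov_zs _ 1 5330261 _ _ (chkRoot_sound _ _ _ _ c1383) (Cov_zs _ 2 5505024 _ _ (chkRoot_sound _ _ _ _ c1384) (chkRoot_sound _ _ _ _ c1385))) (chkRoot_sound _ _ _ _ c1386))) (Cov_zf _ 5417643 _ _ (by decide) (Cov_zs _ 0 48758784 _ _ (Cov_zt _ 5504331 _ _ (by decide) (Cov_zf _ 5504330 _ _ (by decide) (Cov_zs _ 0 47972352 _ _ (chkRoot_sound _ _ _ _ c1387) (Cov_zs _ 1 5460987 _ _ (chkRoot_sound _ _ _ _ c1388) (chkRoot_sound _ _ _ _ c1389))))) (Cov_zs _ 1 5505024 _ _ (Cov_zs _ 2 5505024 _ _ (chkRoot_sound _ _ _ _ c1390) (Cov_zs _ 0 49545216 _ _ (chkRoot_sound _ _ _ _ c1391) (chkRoot_sound _ _ _ _ c1392))) (Cov_zf _ 5505024 _ _ (by decide)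 (Cov_zs _ 0 49545216 _ _ (chkRoot_sound _ _ _ _ c1393) (Cov_zs _ 1 5548715 _ _ (chkRoot_sound _ _ _ _ c1394) (chkRoot_sound _ _ _ _ c1395))))))))))))))))))))

end Vale.Agent.P154q4.D5
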