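import Vale.Agent.P154q4.TMSound
import Vale.Agent.P154q4.D5.Mpp.F0
import Vale.Agent.P154q4.D5.Mpp.F1
import Vale.Agent.P154q4.D5.Mpp.F2
import Vale.Agent.P154q4.D5.Mpp.F3
import Vale.Agent.P154q4.D5.Mpp.F4
import Vale.Agent.P154q4.D5.Mpp.F5

namespace Vale.Agent.P154q4.D5

open Vale.Agent.P154q4.TMC Vale.Agent.P154q4.TMS Mpp

set_option maxRecDepth 1000000 in
theorem covMpp : Cov DMpp ⟨0, 50331648, 0, 5592406, 0, 5592406⟩ ⟨0, 50331648, 0, 5592406, 0, 5592406⟩ :=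
  (Cov_zs _ 0 25165824 _ _ (Cov_zt _ 3954428 _ _ (by decide) (Cov_zs _ 0 12582912 _ _ (Cov_zt _ 2796203 _ _ (by decide) (Cov_zs _ 0 6291456 _ _ (chkRoot_sound _ _ _ _ c0) (Cov_zs _ 2 2796203 _ _ (chkRoot_sound _ _ _ _ c1) (Cov_zs _ 0 9437184 _ _ (chkRoot_sound _ _ _ _ c2) (Cov_zs _ 2 4194304 _ _ (chkRoot_sound _ _ _ _ c3) (chkRoot_sound _ _ _ _ c4)))))) (Cov_zs _ 0 18874368 _ _ (Cov_zt _ 3424635 _ _ (by decide) (Cov_zs _ 2 2796203 _ _ (Cov_zs _ 1 1712317 _ _ (Cov_zs _ 0 15728640 _ _ (chkRoot_sound _ _ _ _ c5) (chkRoot_sound _ _ _ _ c6)) (chkRoot_sound _ _ _ _ c7)) (Cov_zs _ 0 15728640 _ _ (Cov_zt _ 3126250 _ _ (by decide) (Cov_zs _ 1 1563125 _ _ (chkRoot_sound _ _ _ _ c8) (Cov_zs _ 2 4194304 _ _ (chkRoot_sound _ _ _ _ c9) (Cov_zs _ 0 14155776 _ _ (chkRoot_sound _ _ _ _ c10) (chkRoot_sound _ _ _ _ c11)))))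 (Cov_zs _ 1 1712317 _ _ (chkRoot_sound _ _ _ _ c12) (Cov_zs _ 2 4194304 _ _ (chkRoot_sound _ _ _ _ c13) (Cov_zs _ 0 17301504 _ _ (Cov_zt _ 3278839 _ _ (by decide) (Cov_ys _ 0 25165824 _ _ (chkRoot_sound _ _ _ _ c14) (chkRoot_sound _ _ _ _ c15))) (Cov_zs _ 1 2568476 _ _ (Cov_ys _ 0 25165824 _ _ (chkRoot_sound _ _ _ _ c16) (chkRoot_sound _ _ _ _ c17)) (chkRoot_sound _ _ _ _ c18)))))))) (Cov_zs _ 2 2796203 _ _ (Cov_zs _ 1 1977214 _ _ (Cov_zs _ 0 22020096 _ _ (chkRoot_sound _ _ _ _ c19) (chkRoot_sound _ _ _ _ c20)) (chkRoot_sound _ _ _ _ c21)) (Cov_zs _ 1 1977214 _ _ (Cov_zs _ 0 22020096 _ _ (Cov_zs _ 2 4194304 _ _ (Cov_zs _ 1 988607 _ _ (chkRoot_sound _ _ _ _ c22) (Cov_zs _ 0 20447232 _ _ (chkRoot_sound _ _ _ _ c23) (chkRoot_sound _ _ _ _ c24))) (chkRoot_sound _ _ _ _ c25)) (chkRoot_sound _ _ _ _ c26))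 (Cov_zs _ 0 22020096 _ _ (Cov_zt _ 3699029 _ _ (by decide) (Cov_zf _ 2989266 _ _ (by decide) (Cov_zs _ 2 4290836 _ _ (chkRoot_sound _ _ _ _ c27) (Cov_zs _ 1 2838121 _ _ (Cov_zs _ 0 20447232 _ _ (Cov_ys _ 0 25165824 _ _ (chkRoot_sound _ _ _ _ c28) (chkRoot_sound _ _ _ _ c29)) (Cov_ys _ 0 25165824 _ _ (chkRoot_sound _ _ _ _ c30) (chkRoot_sound _ _ _ _ c31))) (Cov_zs _ 0 20447232 _ _ (chkRoot_sound _ _ _ _ c32) (Cov_ys _ 0 25165824 _ _ (chkRoot_sound _ _ _ _ c33) (chkRoot_sound _ _ _ _ c34))))))) (Cov_zs _ 2 4194304 _ _ (Cov_zs _ 1 2965821 _ _ (Cov_zs _ 0 23592960 _ _ (chkRoot_sound _ _ _ _ c35) (chkRoot_sound _ _ _ _ c36)) (chkRoot_sound _ _ _ _ c37)) (Cov_zs _ 1 2965821 _ _ (Cov_zs _ 0 23592960 _ _ (Cov_ys _ 0 25165824 _ _ (chkRoot_sound _ _ _ _ c38) (chkRoot_sound _ _ _ _ c39)) (Cov_zs _ 2 4893355 _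 _ (Cov_ys _ 0 25165824 _ _ (chkRoot_sound _ _ _ _ c40) (chkRoot_sound _ _ _ _ c41)) (chkRoot_sound _ _ _ _ c42))) (Cov_zs _ 0 23592960 _ _ (Cov_zt _ 3828859 _ _ (by decide) (Cov_zf _ 4331858 _ _ (by decide) (Cov_ys _ 0 25165824 _ _ (chkRoot_sound _ _ _ _ c43) (chkRoot_sound _ _ _ _ c44)))) (Cov_zs _ 2 4893355 _ _ (chkRoot_sound _ _ _ _ c45) (Cov_ys _ 0 25165824 _ _ (chkRoot_sound _ _ _ _ c46) (chkRoot_sound _ _ _ _ c47)))))))))))) (Cov_zs _ 0 37748736 _ _ (Cov_zt _ 4843166 _ _ (by decide) (Cov_zs _ 1 2421583 _ _ (chkRoot_sound _ _ _ _ c48) (Cov_zf _ 2796203 _ _ (by decide) (Cov_zs _ 0 31457280 _ _ (Cov_zt _ 4421185 _ _ (by decide) (Cov_zf _ 3063087 _ _ (by decide) (Cov_zs _ 0 28311552 _ _ (Cov_zt _ 4194305 _ _ (by decide) (Cov_zf _ 3228777 _ _ (by decide) (Cov_zs _ 2 4410591 _ _ (chkRoot_sound _ _ _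 _ c49) (Cov_zs _ 1 3307944 _ _ (Cov_zs _ 0 26738688 _ _ (Cov_ys _ 0 25165824 _ _ (chkRoot_sound _ _ _ _ c50) (chkRoot_sound _ _ _ _ c51)) (Cov_zs _ 2 5001498 _ _ (Cov_ys _ 0 25165824 _ _ (chkRoot_sound _ _ _ _ c52) (chkRoot_sound _ _ _ _ c53)) (chkRoot_sound _ _ _ _ c54))) (Cov_zs _ 0 26738688 _ _ (Cov_zt _ 4076131 _ _ (by decide) (Cov_zf _ 4538461 _ _ (by decide) (Cov_ys _ 0 25165824 _ _ (chkRoot_sound _ _ _ _ c55) (chkRoot_sound _ _ _ _ c56)))) (Cov_zs _ 2 5001498 _ _ (chkRoot_sound _ _ _ _ c57) (Cov_ys _ 0 25165824 _ _ (chkRoot_sound _ _ _ _ c58) (Cov_zs _ 1 3751124 _ _ (chkRoot_sound _ _ _ _ c59) (chkRoot_sound _ _ _ _ c60))))))))) (Cov_zs _ 2 4327746 _ _ (chkRoot_sound _ _ _ _ c61) (Cov_zs _ 1 3421384 _ _ (chkRoot_sound _ _ _ _ c62) (Cov_zs _ 2 4960076 _ _ (chkRoot_sound _ _ _ _ c63) (Cov_zs _ 0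 29884416 _ _ (Cov_zt _ 4309238 _ _ (by decide) (Cov_zs _ 1 3865311 _ _ (Cov_ys _ 0 25165824 _ _ (chkRoot_sound _ _ _ _ c64) (Cov_ys _ 0 37748736 _ _ (chkRoot_sound _ _ _ _ c65) (chkRoot_sound _ _ _ _ c66))) (chkRoot_sound _ _ _ _ c67))) (Cov_zs _ 1 3921284 _ _ (Cov_ys _ 0 25165824 _ _ (chkRoot_sound _ _ _ _ c68) (chkRoot_sound _ _ _ _ c69)) (chkRoot_sound _ _ _ _ c70))))))))) (Cov_zs _ 2 4194304 _ _ (chkRoot_sound _ _ _ _ c71) (Cov_zs _ 1 3632374 _ _ (chkRoot_sound _ _ _ _ c72) (Cov_zs _ 0 34603008 _ _ (Cov_zt _ 4636978 _ _ (by decide) (Cov_zf _ 4380807 _ _ (by decide) (Cov_zs _ 2 4986606 _ _ (chkRoot_sound _ _ _ _ c73) (Cov_zs _ 0 33030144 _ _ (Cov_zt _ 4530367 _ _ (by decide) (Cov_zs _ 1 4081370 _ _ (Cov_ys _ 0 25165824 _ _ (chkRoot_sound _ _ _ _ c74) (chkRoot_sound _ _ _ _ c75)) (chkRoot_sound _ _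 _ _ c76))) (Cov_zs _ 1 4134676 _ _ (chkRoot_sound _ _ _ _ c77) (chkRoot_sound _ _ _ _ c78)))))) (Cov_zs _ 2 4893355 _ _ (chkRoot_sound _ _ _ _ c79) (Cov_zs _ 1 4237770 _ _ (chkRoot_sound _ _ _ _ c80) (Cov_zs _ 0 36175872 _ _ (Cov_zt _ 4741193 _ _ (by decide) (Cov_zf _ 4998600 _ _ (by decide) (Cov_zs _ 2 5295503 _ _ (chkRoot_sound _ _ _ _ c81) (chkRoot_sound _ _ _ _ c82)))) (chkRoot_sound _ _ _ _ c83))))))))))) (Cov_zs _ 1 2796203 _ _ (chkRoot_sound _ _ _ _ c84) (Cov_zf _ 2796203 _ _ (by decide) (Cov_zs _ 0 44040192 _ _ (Cov_zt _ 5231217 _ _ (by decide) (Cov_zf _ 2989266 _ _ (by decide) (Cov_zs _ 1 4013710 _ _ (chkRoot_sound _ _ _ _ c85) (Cov_zf _ 4290836 _ _ (by decide) (Cov_zs _ 0 40894464 _ _ (Cov_zt _ 5040927 _ _ (by decide) (Cov_zf _ 4452811 _ _ (by decide) (Cov_zs _ 2 5022608 _ _ (chkRoot_sound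 _ _ _ _ c86) (Cov_zs _ 1 4527318 _ _ (chkRoot_sound _ _ _ _ c87) (Cov_zs _ 0 39321600 _ _ (chkRoot_sound _ _ _ _ c88) (chkRoot_sound _ _ _ _ c89)))))) (chkRoot_sound _ _ _ _ c90)))))) (chkRoot_sound _ _ _ _ c91))))))

end Vale.Agent.P154q4.D5
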