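import Vale.Agent.P154q4.TM

namespace Vale.Agent.P154q4.D5

noncomputable section

open Vale.Agent.P154q4.TMC MT in
/-- Data of one sign branch. -/
def DInn : Data :=
  ⟨false, false, 58,
   (p (p (p (p (p nil nil) nil) nil) (e (p (p (p (p nil nil) (e (p (p nil (t nil nil)) nil) nil)) (t (p (p nil (t nil nil)) nil) nil)) nil) nil)) (t (p (p (p (p nil nil) nil) (t (p (p (p nil nil) (t (p nil nil) nil)) nil) nil)) nil) nil)),
   (p (p (p nil nil) (e (p (p (e nil nil) (t nil nil)) nil) nil)) (t (p (p nil (t (p nil nil) nil)) nil) nil)),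
  [[Int.ofNat 12740198400000000, Int.ofNat 3468165120000000, Int.negSucc 5945425919999999, Int.ofNat 0, Int.ofNat 0, Int.ofNat 0, Int.negSucc 61152952319999999, Int.ofNat 0, Int.ofNat 0, Int.ofNat 0, Int.ofNat 0, Int.ofNat 0, Int.ofNat 0, Int.ofNat 0, Int.ofNat 0, Int.ofNat 0, Int.ofNat 0, Int.ofNat 0, Int.ofNat 0, Int.ofNat 30576476160000000, Int.negSucc 105318973439999999, Int.ofNat 0, Int.ofNat 0, Int.ofNat 0, Int.ofNat 0, Int.ofNat 0, Int.ofNat 0, Int.ofNat 0, Int.ofNat 0, Int.ofNat 0],
  [Int.negSucc 459392444006399, Int.negSucc 6862168697702399, Int.ofNat 8179809421824000, Int.negSucc 3115652184115199, Int.ofNat 0, Int.ofNat 0, Int.ofNat 28227913598361600, Int.negSucc 30544632805478399, Int.ofNat 6231304368230400, Int.ofNat 0, Int.ofNat 0, Int.ofNat 0, Int.ofNat 0, Int.ofNat 0, Int.ofNat 0, Int.ofNat 22861813248000000, Int.ofNat 0, Int.ofNat 0, Int.ofNat 0, Int.negSucc 687970713599999, Int.ofNat 11664303375974400, Int.negSucc 27906677856460799, Int.ofNat 0, Int.ofNat 0, Int.negSucc 30291874559999999, Int.ofNat 0, Int.ofNat 0, Int.ofNat 0, Int.ofNat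 0, Int.ofNat 0],
  [Int.negSucc 416830448006783, Int.ofNat 2484798509987136, Int.negSucc 5233803239284703, Int.ofNat 4680532740635136, Int.negSucc 1514697563330783, Int.ofNat 0, Int.negSucc 6636918812001407, Int.ofNat 18894501413032896, Int.negSucc 19190000961986975, Int.ofNat 4544092689992352, Int.ofNat 0, Int.ofNat 6807603320640000, Int.ofNat 0, Int.ofNat 0, Int.ofNat 0, Int.negSucc 38920965210853631, Int.ofNat 30535766785580544, Int.ofNat 0, Int.ofNat 0, Int.ofNat 0, Int.negSucc 2633949254374271, Int.ofNat 14490885585452544, Int.negSucc 13298944088950271, Int.ofNat 0, Int.negSucc 27781667491431167, Int.ofNat 8722394483417568, Int.negSucc 4544092689992351, Int.ofNat 0, Int.negSucc 11813635823039999, Int.ofNat 0],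
  [Int.ofNat 0, Int.negSucc 80607496131224, Int.ofNat 413828504420940, Int.negSucc 757840536475469, Int.ofNat 596625544213020, Int.negSucc 172006016027264, Int.ofNat 161214992262450, Int.negSucc 1402700505525269, Int.ofNat 3453715766438730, Int.negSucc 2900254317284969, Int.ofNat 688024064109060, Int.negSucc 2521603306287089, Int.ofNat 2481893997566220, Int.negSucc 344012032054529, Int.negSucc 522277256548799, Int.ofNat 1133036761134960, Int.negSucc 6890381300645639, Int.ofNat 4624307778375720, Int.ofNat 2736123053163840, Int.ofNat 0, Int.ofNat 0, Int.negSucc 566518380567479, Int.ofNat 2020908097267920, Int.negSucc 1454389716700439, Int.ofNat 1725130490050170, Int.negSucc 3292500774176279, Int.ofNat 879346220017050, Int.negSucc 688024064109059, Int.ofNat 8545695318329400, Int.negSucc 4624307778375719],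
  [Int.negSucc 12383472844799999, Int.ofNat 28227913598361600, Int.negSucc 21395204581478399, Int.ofNat 6231304368230400, Int.ofNat 0, Int.ofNat 0, Int.negSucc 38043981860659199, Int.ofNat 58437531988070400, Int.negSucc 31156521841151999, Int.ofNat 0, Int.ofNat 0, Int.ofNat 0, Int.ofNat 0, Int.ofNat 0, Int.ofNat 0, Int.negSucc 114309066239999999, Int.ofNat 0, Int.ofNat 0, Int.ofNat 0, Int.negSucc 87971820230246399, Int.ofNat 112611522690662400, Int.negSucc 43041271681843199, Int.ofNat 0, Int.ofNat 0, Int.negSucc 194981582591999999, Int.ofNat 0, Int.ofNat 0, Int.ofNat 0, Int.ofNat 0, Int.ofNat 0],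
  [Int.ofNat 0, Int.negSucc 8972566577601407, Int.ofNat 18894501413032896, Int.negSucc 15786199301666975, Int.ofNat 4544092689992352, Int.ofNat 0, Int.ofNat 17510371958189952, Int.negSucc 60090428454208703, Int.ofNat 69335385111951120, Int.negSucc 24992509794957935, Int.ofNat 0, Int.negSucc 23485009625427455, Int.ofNat 0, Int.ofNat 0, Int.ofNat 0, Int.ofNat 85405608700823808, Int.negSucc 121141389914341631, Int.ofNat 0, Int.ofNat 0, Int.ofNat 20007861504325632, Int.negSucc 41763610524805631, Int.ofNat 27077806327244544, Int.negSucc 6908495139500543, Int.ofNat 0, Int.ofNat 284765572914361344, Int.negSucc 291750672656750255, Int.ofNat 47712973244919696, Int.ofNat 0, Int.ofNat 124043176141920000, Int.ofNat 0],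
  [Int.ofNat 0, Int.ofNat 161214992262450, Int.negSucc 1663839133799669, Int.ofNat 3453715766438730, Int.negSucc 2639115689010569, Int.ofNat 688024064109060, Int.negSucc 806074961312249, Int.ofNat 6072057179639235, Int.negSucc 19376892148539509, Int.ofNat 17397801860131575, Int.negSucc 5160180480817949, Int.ofNat 23560719045187140, Int.negSucc 24612183130961519, Int.ofNat 6192216576981540, Int.ofNat 9400990617878400, Int.ofNat 22177761344292240, Int.negSucc 11946644844633539, Int.negSucc 9624035480871059, Int.ofNat 14987203205031720, Int.ofNat 0, Int.ofNat 2579439876199200, Int.negSucc 11342032698784319, Int.ofNat 9642477557081880, Int.negSucc 2535198752180519, Int.negSucc 11135006596843784, Int.ofNat 27644174906902560, Int.negSucc 31603834353818384, Int.ofNat 5160180480817950, Int.negSucc 46844641073847059, Int.ofNat 34682308337817900],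
  [Int.ofNat 0, Int.ofNat 0, Int.ofNat 522277256548800, Int.negSucc 2521603306287089, Int.ofNat 1698478112743020, Int.negSucc 344012032054529, Int.ofNat 0, Int.negSucc 1582804972918799, Int.ofNat 23560719045187140, Int.negSucc 21183280498930679, Int.ofNat 6192216576981540, Int.negSucc 61091683604674289, Int.ofNat 64430803260248220, Int.negSucc 22360782083544449, Int.negSucc 33948021675671999, Int.negSucc 86903356298358239, Int.ofNat 152038156825987920, Int.negSucc 50261563803423599, Int.negSucc 15112834773292079, Int.ofNat 0, Int.ofNat 0, Int.ofNat 25576871627697120, Int.negSucc 39686973786190079, Int.ofNat 13796735804563680, Int.negSucc 21600207506329199, Int.ofNat 65133905729789160, Int.negSucc 51523645450816079, Int.ofNat 17888625666835560, Int.negSucc 173033702539249679, Int.ofNat 120232002237768720],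
  [Int.ofNat 0, Int.ofNat 2638897920432000, Int.negSucc 17802889161868799, Int.ofNat 5635957314168000, Int.ofNat 0, Int.ofNat 0, Int.negSucc 13194489602159999, Int.ofNat 38854105573190400, Int.ofNat 115833792737908800, Int.negSucc 63515777382892799, Int.ofNat 0, Int.negSucc 452129508734428799, Int.ofNat 232891183737273600, Int.ofNat 0, Int.ofNat 0, Int.ofNat 167846402129961600, Int.negSucc 351140991866589599, Int.ofNat 247152399145898400, Int.ofNat 495687010008960000, Int.ofNat 0, Int.ofNat 86048545864320000, Int.negSucc 178228409025283199, Int.ofNat 147893032710064800, Int.negSucc 67405199767063199, Int.ofNat 552421777095417600, Int.negSucc 452328265967817599, Int.ofNat 34188039988300800, Int.ofNat 0, Int.ofNat 297743570097696000, Int.ofNat 0],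
  [Int.ofNat 13759414272000000, Int.ofNat 7070810112000000, Int.ofNat 0, Int.ofNat 0, Int.ofNat 0, Int.ofNat 0, Int.negSucc 198747095039999999, Int.ofNat 128421199872000000, Int.ofNat 0, Int.ofNat 0, Int.ofNat 0, Int.ofNat 0, Int.ofNat 0, Int.ofNat 0, Int.ofNat 0, Int.ofNat 0, Int.ofNat 0, Int.ofNat 0, Int.ofNat 0, Int.negSucc 217092980735999999, Int.ofNat 167406206976000000, Int.ofNat 80263249920000000, Int.ofNat 0, Int.ofNat 0, Int.ofNat 366917713920000000, Int.ofNat 0, Int.ofNat 0, Int.ofNat 0, Int.ofNat 0, Int.ofNat 0],
  [Int.negSucc 9540252472319999, Int.ofNat 5444613832320000, Int.negSucc 3025645565759999, Int.ofNat 0, Int.ofNat 0, Int.ofNat 0, Int.ofNat 50135177111040000, Int.negSucc 66050554878719999, Int.ofNat 44192384974080000, Int.ofNat 0, Int.ofNat 0, Int.ofNat 0, Int.ofNat 0, Int.ofNat 0, Int.ofNat 0, Int.ofNat 289837736628480000, Int.ofNat 0, Int.ofNat 0, Int.ofNat 0, Int.ofNat 33575204712960000, Int.negSucc 153928804079519999, Int.ofNat 9046498906080000, Int.ofNat 39186459547200000, Int.ofNat 0, Int.negSucc 299097375655679999, Int.ofNat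 397339669140480000, Int.ofNat 0, Int.ofNat 0, Int.ofNat 0, Int.ofNat 0],
  [Int.ofNat 0, Int.negSucc 3638640478103999, Int.ofNat 6582253063046400, Int.negSucc 2817978657083999, Int.ofNat 0, Int.ofNat 0, Int.negSucc 6637868151119999, Int.ofNat 12220580178921600, Int.negSucc 59035566494217599, Int.ofNat 31757888691446400, Int.ofNat 0, Int.ofNat 132741664680412800, Int.negSucc 63515777382892799, Int.ofNat 0, Int.ofNat 0, Int.negSucc 178228409025283199, Int.ofNat 251943704542000800, Int.negSucc 67405199767063199, Int.negSucc 135187366366079999, Int.ofNat 5218180915248000, Int.ofNat 2479044719160000, Int.ofNat 12784150401170400, Int.negSucc 52776170853692399, Int.ofNat 33702599883531600, Int.negSucc 48659860363391999, Int.negSucc 73633545010569599, Int.ofNat 194625237948825600, Int.ofNat 0, Int.ofNat 195936276536352000, Int.ofNat 0],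
  [Int.ofNat 0, Int.negSucc 13000918207525631, Int.negSucc 27781667491431167, Int.ofNat 19275401461190112, Int.negSucc 4544092689992351, Int.ofNat 0, Int.negSucc 55042577988325631, Int.ofNat 284765572914361344, Int.negSucc 124268968999639727, Int.ofNat 47712973244919696, Int.ofNat 0, Int.negSucc 221613146533223423, Int.ofNat 0, Int.ofNat 0, Int.ofNat 0, Int.ofNat 1219750608107888640, Int.negSucc 662286324284782847, Int.ofNat 0, Int.ofNat 0, Int.ofNat 42041659780800000, Int.negSucc 185340944271702527, Int.negSucc 109719013034879999, Int.ofNat 100519149952203264, Int.ofNat 0, Int.negSucc 299083522930341119, Int.ofNat 688906706290926480, Int.negSucc 524842705694116655, Int.ofNat 0, Int.negSucc 1364474937561119999, Int.ofNat 0],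
  [Int.ofNat 0, Int.ofNat 0, Int.ofNat 696549180224970, Int.negSucc 3292500774176279, Int.ofNat 2639115689010570, Int.negSucc 688024064109059, Int.ofNat 0, Int.negSucc 26611645854038984, Int.ofNat 27644174906902560, Int.negSucc 13608599177754224, Int.ofNat 5160180480817950, Int.ofNat 65133905729789160, Int.negSucc 65897040295502279, Int.ofNat 17888625666835560, Int.ofNat 27158417340537600, Int.negSucc 88278509628735839, Int.ofNat 15541112053105740, Int.negSucc 32139752614040339, Int.negSucc 526460014021408919, Int.ofNat 0, Int.ofNat 20699411822683200, Int.negSucc 13338351361104479, Int.ofNat 21113555142123720, Int.ofNat 2535198752180520, Int.ofNat 67837639066926435, Int.negSucc 21830393820335759, Int.ofNat 283322209320137835, Int.negSucc 125564391699903449, Int.ofNat 951607966822449660, Int.negSucc 843936169553568899]],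
  true, 3085944310097510400000, 1⟩

end

end Vale.Agent.P154q4.D5
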