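import Vale.Agent.P154q4.TM

namespace Vale.Agent.P154q4.D5

noncomputable section

open Vale.Agent.P154q4.TMC MT in
/-- Data of one sign branch. -/
def DIpp : Data :=
  ⟨true, true, 58,
   (p (p (p (p (p nil nil) nil) nil) (e (p (p (p (p nil nil) (e (p (p nil (t nil nil)) nil) nil)) (t (p (p nil (t nil nil)) nil) nil)) nil) nil)) (t (p (p (p (p nil nil) nil) (t (p (p (p nil nil) (t (p nil nil) nil)) nil) nil)) nil) nil)),
   (p (p (p nil nil) (e (p (p (e nil nil) (t nil nil)) nil) nil)) (t (p (p nil (t (p nil nil) nil)) nil) nil)),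
  [[Int.ofNat 12740198400000000, Int.ofNat 3468165120000000, Int.negSucc 5945425919999999, Int.ofNat 0, Int.ofNat 0, Int.ofNat 0, Int.negSucc 61152952319999999, Int.ofNat 0, Int.ofNat 0, Int.ofNat 0, Int.ofNat 0, Int.ofNat 0, Int.ofNat 0, Int.ofNat 0, Int.ofNat 0, Int.ofNat 0, Int.ofNat 0, Int.ofNat 0, Int.ofNat 0, Int.negSucc 30576476159999999, Int.ofNat 105318973440000000, Int.ofNat 0, Int.ofNat 0, Int.ofNat 0, Int.ofNat 0, Int.ofNat 0, Int.ofNat 0, Int.ofNat 0, Int.ofNat 0, Int.ofNat 0],
  [Int.negSucc 459392444006399, Int.negSucc 6862168697702399, Int.ofNat 8179809421824000, Int.negSucc 3115652184115199, Int.ofNat 0, Int.ofNat 0, Int.ofNat 28227913598361600, Int.negSucc 30544632805478399, Int.ofNat 6231304368230400, Int.ofNat 0, Int.ofNat 0, Int.ofNat 0, Int.ofNat 0, Int.ofNat 0, Int.ofNat 0, Int.negSucc 22861813247999999, Int.ofNat 0, Int.ofNat 0, Int.ofNat 0, Int.ofNat 687970713600000, Int.negSucc 11664303375974399, Int.ofNat 27906677856460800, Int.ofNat 0, Int.ofNat 0, Int.negSucc 30291874559999999, Int.ofNat 0, Int.ofNat 0, Int.ofNat 0, Int.ofNat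 0, Int.ofNat 0],
  [Int.negSucc 416830448006783, Int.ofNat 2484798509987136, Int.negSucc 5233803239284703, Int.ofNat 4680532740635136, Int.negSucc 1514697563330783, Int.ofNat 0, Int.negSucc 6636918812001407, Int.ofNat 18894501413032896, Int.negSucc 19190000961986975, Int.ofNat 4544092689992352, Int.ofNat 0, Int.ofNat 6807603320640000, Int.ofNat 0, Int.ofNat 0, Int.ofNat 0, Int.ofNat 38920965210853632, Int.negSucc 30535766785580543, Int.ofNat 0, Int.ofNat 0, Int.ofNat 0, Int.ofNat 2633949254374272, Int.negSucc 14490885585452543, Int.ofNat 13298944088950272, Int.ofNat 0, Int.negSucc 27781667491431167, Int.ofNat 8722394483417568, Int.negSucc 4544092689992351, Int.ofNat 0, Int.ofNat 11813635823040000, Int.ofNat 0],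
  [Int.ofNat 0, Int.negSucc 80607496131224, Int.ofNat 413828504420940, Int.negSucc 757840536475469, Int.ofNat 596625544213020, Int.negSucc 172006016027264, Int.ofNat 161214992262450, Int.negSucc 1402700505525269, Int.ofNat 3453715766438730, Int.negSucc 2900254317284969, Int.ofNat 688024064109060, Int.negSucc 2521603306287089, Int.ofNat 2481893997566220, Int.negSucc 344012032054529, Int.ofNat 522277256548800, Int.negSucc 1133036761134959, Int.ofNat 6890381300645640, Int.negSucc 4624307778375719, Int.ofNat 2736123053163840, Int.ofNat 0, Int.ofNat 0, Int.ofNat 566518380567480, Int.negSucc 2020908097267919, Int.ofNat 1454389716700440, Int.ofNat 1725130490050170, Int.negSucc 3292500774176279, Int.ofNat 879346220017050, Int.negSucc 688024064109059, Int.negSucc 8545695318329399, Int.ofNat 4624307778375720],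
  [Int.negSucc 12383472844799999, Int.ofNat 28227913598361600, Int.negSucc 21395204581478399, Int.ofNat 6231304368230400, Int.ofNat 0, Int.ofNat 0, Int.negSucc 38043981860659199, Int.ofNat 58437531988070400, Int.negSucc 31156521841151999, Int.ofNat 0, Int.ofNat 0, Int.ofNat 0, Int.ofNat 0, Int.ofNat 0, Int.ofNat 0, Int.ofNat 114309066240000000, Int.ofNat 0, Int.ofNat 0, Int.ofNat 0, Int.ofNat 87971820230246400, Int.negSucc 112611522690662399, Int.ofNat 43041271681843200, Int.ofNat 0, Int.ofNat 0, Int.negSucc 194981582591999999, Int.ofNat 0, Int.ofNat 0, Int.ofNat 0, Int.ofNat 0, Int.ofNat 0],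
  [Int.ofNat 0, Int.negSucc 8972566577601407, Int.ofNat 18894501413032896, Int.negSucc 15786199301666975, Int.ofNat 4544092689992352, Int.ofNat 0, Int.ofNat 17510371958189952, Int.negSucc 60090428454208703, Int.ofNat 69335385111951120, Int.negSucc 24992509794957935, Int.ofNat 0, Int.negSucc 23485009625427455, Int.ofNat 0, Int.ofNat 0, Int.ofNat 0, Int.negSucc 85405608700823807, Int.ofNat 121141389914341632, Int.ofNat 0, Int.ofNat 0, Int.negSucc 20007861504325631, Int.ofNat 41763610524805632, Int.negSucc 27077806327244543, Int.ofNat 6908495139500544, Int.ofNat 0, Int.ofNat 284765572914361344, Int.negSucc 291750672656750255, Int.ofNat 47712973244919696, Int.ofNat 0, Int.negSucc 124043176141919999, Int.ofNat 0],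
  [Int.ofNat 0, Int.ofNat 161214992262450, Int.negSucc 1663839133799669, Int.ofNat 3453715766438730, Int.negSucc 2639115689010569, Int.ofNat 688024064109060, Int.negSucc 806074961312249, Int.ofNat 6072057179639235, Int.negSucc 19376892148539509, Int.ofNat 17397801860131575, Int.negSucc 5160180480817949, Int.ofNat 23560719045187140, Int.negSucc 24612183130961519, Int.ofNat 6192216576981540, Int.negSucc 9400990617878399, Int.negSucc 22177761344292239, Int.ofNat 11946644844633540, Int.ofNat 9624035480871060, Int.ofNat 14987203205031720, Int.ofNat 0, Int.negSucc 2579439876199199, Int.ofNat 11342032698784320, Int.negSucc 9642477557081879, Int.ofNat 2535198752180520, Int.negSucc 11135006596843784, Int.ofNat 27644174906902560, Int.negSucc 31603834353818384, Int.ofNat 5160180480817950, Int.ofNat 46844641073847060, Int.negSucc 34682308337817899],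
  [Int.ofNat 0, Int.ofNat 0, Int.ofNat 522277256548800, Int.negSucc 2521603306287089, Int.ofNat 1698478112743020, Int.negSucc 344012032054529, Int.ofNat 0, Int.negSucc 1582804972918799, Int.ofNat 23560719045187140, Int.negSucc 21183280498930679, Int.ofNat 6192216576981540, Int.negSucc 61091683604674289, Int.ofNat 64430803260248220, Int.negSucc 22360782083544449, Int.ofNat 33948021675672000, Int.ofNat 86903356298358240, Int.negSucc 152038156825987919, Int.ofNat 50261563803423600, Int.negSucc 15112834773292079, Int.ofNat 0, Int.ofNat 0, Int.negSucc 25576871627697119, Int.ofNat 39686973786190080, Int.negSucc 13796735804563679, Int.negSucc 21600207506329199, Int.ofNat 65133905729789160, Int.negSucc 51523645450816079, Int.ofNat 17888625666835560, Int.ofNat 173033702539249680, Int.negSucc 120232002237768719],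
  [Int.ofNat 0, Int.negSucc 2638897920431999, Int.ofNat 17802889161868800, Int.negSucc 5635957314167999, Int.ofNat 0, Int.ofNat 0, Int.ofNat 13194489602160000, Int.negSucc 38854105573190399, Int.negSucc 115833792737908799, Int.ofNat 63515777382892800, Int.ofNat 0, Int.ofNat 452129508734428800, Int.negSucc 232891183737273599, Int.ofNat 0, Int.ofNat 0, Int.ofNat 167846402129961600, Int.negSucc 351140991866589599, Int.ofNat 247152399145898400, Int.negSucc 495687010008959999, Int.ofNat 0, Int.ofNat 86048545864320000, Int.negSucc 178228409025283199, Int.ofNat 147893032710064800, Int.negSucc 67405199767063199, Int.negSucc 552421777095417599, Int.ofNat 452328265967817600, Int.negSucc 34188039988300799, Int.ofNat 0, Int.ofNat 297743570097696000, Int.ofNat 0],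
  [Int.negSucc 13759414271999999, Int.negSucc 7070810111999999, Int.ofNat 0, Int.ofNat 0, Int.ofNat 0, Int.ofNat 0, Int.ofNat 198747095040000000, Int.negSucc 128421199871999999, Int.ofNat 0, Int.ofNat 0, Int.ofNat 0, Int.ofNat 0, Int.ofNat 0, Int.ofNat 0, Int.ofNat 0, Int.ofNat 0, Int.ofNat 0, Int.ofNat 0, Int.ofNat 0, Int.negSucc 217092980735999999, Int.ofNat 167406206976000000, Int.ofNat 80263249920000000, Int.ofNat 0, Int.ofNat 0, Int.negSucc 366917713919999999, Int.ofNat 0, Int.ofNat 0, Int.ofNat 0, Int.ofNat 0, Int.ofNat 0],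
  [Int.ofNat 9540252472320000, Int.negSucc 5444613832319999, Int.ofNat 3025645565760000, Int.ofNat 0, Int.ofNat 0, Int.ofNat 0, Int.negSucc 50135177111039999, Int.ofNat 66050554878720000, Int.negSucc 44192384974079999, Int.ofNat 0, Int.ofNat 0, Int.ofNat 0, Int.ofNat 0, Int.ofNat 0, Int.ofNat 0, Int.ofNat 289837736628480000, Int.ofNat 0, Int.ofNat 0, Int.ofNat 0, Int.ofNat 33575204712960000, Int.negSucc 153928804079519999, Int.ofNat 9046498906080000, Int.ofNat 39186459547200000, Int.ofNat 0, Int.ofNat 299097375655680000, Int.negSucc 397339669140479999, Int.ofNat 0, Int.ofNat 0, Int.ofNat 0, Int.ofNat 0],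
  [Int.ofNat 0, Int.ofNat 3638640478104000, Int.negSucc 6582253063046399, Int.ofNat 2817978657084000, Int.ofNat 0, Int.ofNat 0, Int.ofNat 6637868151120000, Int.negSucc 12220580178921599, Int.ofNat 59035566494217600, Int.negSucc 31757888691446399, Int.ofNat 0, Int.negSucc 132741664680412799, Int.ofNat 63515777382892800, Int.ofNat 0, Int.ofNat 0, Int.negSucc 178228409025283199, Int.ofNat 251943704542000800, Int.negSucc 67405199767063199, Int.ofNat 135187366366080000, Int.ofNat 5218180915248000, Int.ofNat 2479044719160000, Int.ofNat 12784150401170400, Int.negSucc 52776170853692399, Int.ofNat 33702599883531600, Int.ofNat 48659860363392000, Int.ofNat 73633545010569600, Int.negSucc 194625237948825599, Int.ofNat 0, Int.ofNat 195936276536352000, Int.ofNat 0],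
  [Int.ofNat 0, Int.negSucc 13000918207525631, Int.negSucc 27781667491431167, Int.ofNat 19275401461190112, Int.negSucc 4544092689992351, Int.ofNat 0, Int.negSucc 55042577988325631, Int.ofNat 284765572914361344, Int.negSucc 124268968999639727, Int.ofNat 47712973244919696, Int.ofNat 0, Int.negSucc 221613146533223423, Int.ofNat 0, Int.ofNat 0, Int.ofNat 0, Int.negSucc 1219750608107888639, Int.ofNat 662286324284782848, Int.ofNat 0, Int.ofNat 0, Int.negSucc 42041659780799999, Int.ofNat 185340944271702528, Int.ofNat 109719013034880000, Int.negSucc 100519149952203263, Int.ofNat 0, Int.negSucc 299083522930341119, Int.ofNat 688906706290926480, Int.negSucc 524842705694116655, Int.ofNat 0, Int.ofNat 1364474937561120000, Int.ofNat 0],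
  [Int.ofNat 0, Int.ofNat 0, Int.ofNat 696549180224970, Int.negSucc 3292500774176279, Int.ofNat 2639115689010570, Int.negSucc 688024064109059, Int.ofNat 0, Int.negSucc 26611645854038984, Int.ofNat 27644174906902560, Int.negSucc 13608599177754224, Int.ofNat 5160180480817950, Int.ofNat 65133905729789160, Int.negSucc 65897040295502279, Int.ofNat 17888625666835560, Int.negSucc 27158417340537599, Int.ofNat 88278509628735840, Int.negSucc 15541112053105739, Int.ofNat 32139752614040340, Int.negSucc 526460014021408919, Int.ofNat 0, Int.negSucc 20699411822683199, Int.ofNat 13338351361104480, Int.negSucc 21113555142123719, Int.negSucc 2535198752180519, Int.ofNat 67837639066926435, Int.negSucc 21830393820335759, Int.ofNat 283322209320137835, Int.negSucc 125564391699903449, Int.negSucc 951607966822449659, Int.ofNat 843936169553568900]],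
  true, 3085944310097510400000, 1⟩

end

end Vale.Agent.P154q4.D5
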